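import Crest.Agent.SF.Clos
import Crest.Agent.SFold.Iter
import Crest.Agent.SFD.Rec

/-!
# Row 323: bridge from the polynomial framework (`SFD`) to helper65's `SF`
-/

set_option autoImplicit false

namespace Crest.Agent.SF

theorem toPSF {α : Type} {R : (α → ℕ) → Prop} (h : Crest.Agent.SF.SFD R) :
    Crest.Agent.SFD.PSF {a : α → ℕ | R a} := by
  obtain ⟨β, hβ, F, ⟨p, hp⟩, H⟩ := h
  refine ⟨β, inferInstance, p, fun a => ?_⟩
  have key : ∀ w : β → ℕ, MvPolynomial.eval (fun x => ((Sum.elim a w x : ℕ) : ℤ)) p =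
      F (Sum.elim a w) := fun w => (hp _).symm
  simp only [key]
  exact H a

theorem hexp_of_sff_pow (h : Crest.Agent.SF.SFF (fun b : Fin 2 → ℕ => b 0 ^ b 1)) :
    Crest.Agent.SFD.HExp := by
  have h1 : Crest.Agent.SF.SFD (fun b : Option (Fin 2) → ℕ => b none = b (some 0) ^ b (some 1)) := h
  have h2 := h1.reindex (α := Fin 3) (fun o : Option (Fin 2) => o.elim 2 Fin.castSucc)
  have h3 : Crest.Agent.SF.SFD (fun b : Fin 3 → ℕ => b 2 = b 0 ^ b 1) := h2.congr fun a => by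
    exact Iff.rfl
  exact (toPSF h3).toSF

theorem re_representation (hpow : Crest.Agent.SF.SFF (fun b : Fin 2 → ℕ => b 0 ^ b 1))
    (n : ℕ) (S : Set (Fin n → ℕ)) (hS : REPred fun a => a ∈ S) :
    ∃ m : ℕ, 1 ≤ m ∧ ∃ P : MvPolynomial (Fin n ⊕ Fin m) ℤ, ∀ a : Fin n → ℕ,
      (a ∈ S → ∃! w : Fin m → ℕ,
        MvPolynomial.eval (Sum.elim (fun i => (a i : ℤ)) (fun j => (w j : ℤ))) P = 0) ∧
      (a ∉ S → ∀ w : Fin m → ℕ,
        MvPolynomial.eval (Sum.elim (fun i => (a i : ℤ)) (fun j => (w j : ℤ))) P ≠ 0) := by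
  have hexp := hexp_of_sff_pow hpow
  exact Crest.Agent.SFD.exists_poly_of_SF (Crest.Agent.SFD.SF.of_re
    (fun R hR hf => Crest.Agent.SFD.SF.iter hexp hR hf) hS)

end Crest.Agent.SF
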