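import Crest.Agent.SF.Defs

set_option autoImplicit false

namespace Crest.Agent.SF

variable {α γ : Type}

/-- a polynomial equation is SFD (no unknowns: `β = Empty`) -/
theorem SFD.of_poly {F : (α → ℕ) → ℤ} (hF : IsPoly F) : SFD (fun a => F a = 0) := by
  refine ⟨Empty, inferInstance, fun b => F (fun i => b (Sum.inl i)), hF.reindex Sum.inl, fun a => ?_⟩
  refine ⟨⟨fun h => ⟨Empty.elim, by simpa using h⟩, fun ⟨w, hw⟩ => by simpa using hw⟩, ?_⟩
  intro w w' _ _
  exact Subsingleton.elim _ _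

theorem SFD.poly_eq {F G : (α → ℕ) → ℤ} (hF : IsPoly F) (hG : IsPoly G) :
    SFD (fun a => F a = G a) := by
  have h := SFD.of_poly (hF.sub hG)
  simpa only [sub_eq_zero] using h

theorem SFD.congr {R R' : (α → ℕ) → Prop} (h : SFD R) (e : ∀ a, R' a ↔ R a) : SFD R' := by
  obtain ⟨β, hβ, F, hF, H⟩ := h
  exact ⟨β, hβ, F, hF, fun a => ⟨(e a).trans (H a).1, (H a).2⟩⟩

theorem SFD.reindex {R : (γ → ℕ) → Prop} (h : SFD R) (r : γ → α) :
    SFD (fun a : α → ℕ => R (fun i => a (r i))) := by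
  obtain ⟨β, hβ, F, hF, H⟩ := h
  refine ⟨β, hβ, fun b => F (fun i => b (Sum.map r id i)), hF.reindex (Sum.map r id), fun a => ?_⟩
  have key : ∀ w : β → ℕ, (fun i => (Sum.elim a w) (Sum.map r id i)) =
      Sum.elim (fun i => a (r i)) w := by
    intro w; funext i; cases i <;> rfl
  simp only [key]
  exact H (fun i => a (r i))

theorem SFD.and {R R' : (α → ℕ) → Prop} (h : SFD R) (h' : SFD R') :
    SFD (fun a => R a ∧ R' a) := by
  obtain ⟨β, hβ, F, hF, H⟩ := h
  obtain ⟨β', hβ', F', hF', H'⟩ := h'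
  refine ⟨β ⊕ β', inferInstance, fun b =>
    (F (fun i => b (Sum.elim (fun j => Sum.inl j) (fun j => Sum.inr (Sum.inl j)) i))) ^ 2 +
    (F' (fun i => b (Sum.elim (fun j => Sum.inl j) (fun j => Sum.inr (Sum.inr j)) i))) ^ 2,
    ((hF.reindex _).pow 2).add ((hF'.reindex _).pow 2), fun a => ?_⟩
  have key : ∀ w : β ⊕ β' → ℕ,
      (fun i => (Sum.elim a w) (Sum.elim (fun j => Sum.inl j) (fun j => Sum.inr (Sum.inl j)) i)) =
      Sum.elim a (fun j => w (Sum.inl j)) := by
    intro w; funext i; cases i <;> rfl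
  have key' : ∀ w : β ⊕ β' → ℕ,
      (fun i => (Sum.elim a w) (Sum.elim (fun j => Sum.inl j) (fun j => Sum.inr (Sum.inr j)) i)) =
      Sum.elim a (fun j => w (Sum.inr j)) := by
    intro w; funext i; cases i <;> rfl
  have hsq : ∀ x y : ℤ, x ^ 2 + y ^ 2 = 0 ↔ x = 0 ∧ y = 0 := by
    intro x y
    constructor
    · intro h
      have hx : x ^ 2 = 0 := by nlinarith [sq_nonneg x, sq_nonneg y]
      have hy : y ^ 2 = 0 := by nlinarith [sq_nonneg x, sq_nonneg y]
      exact ⟨by simpa using hx, by simpa using hy⟩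
    · rintro ⟨rfl, rfl⟩; norm_num
  simp only [key, key', hsq]
  constructor
  · constructor
    · rintro ⟨h1, h2⟩
      obtain ⟨w, hw⟩ := (H a).1.1 h1
      obtain ⟨w', hw'⟩ := (H' a).1.1 h2
      exact ⟨Sum.elim w w', by simpa using hw, by simpa using hw'⟩
    · rintro ⟨w, h1, h2⟩
      exact ⟨(H a).1.2 ⟨_, h1⟩, (H' a).1.2 ⟨_, h2⟩⟩
  · rintro w w' ⟨h1, h2⟩ ⟨h3, h4⟩
    have e1 := (H a).2 _ _ h1 h3
    have e2 := (H' a).2 _ _ h2 h4
    funext i
    cases i with
    | inl i => exact congrFun e1 i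
    | inr i => exact congrFun e2 i

/-- disjoint union -/
theorem SFD.or {R R' : (α → ℕ) → Prop} (h : SFD R) (h' : SFD R') (hd : ∀ a, R a → ¬ R' a) :
    SFD (fun a => R a ∨ R' a) := by
  obtain ⟨β, hβ, F, hF, H⟩ := h
  obtain ⟨β', hβ', F', hF', H'⟩ := h'
  refine ⟨β ⊕ β', inferInstance, fun b =>
    ((F (fun i => b (Sum.elim (fun j => Sum.inl j) (fun j => Sum.inr (Sum.inl j)) i))) ^ 2 +
      ∑ j : β', ((b (Sum.inr (Sum.inr j)) : ℕ) : ℤ) ^ 2) *
    ((F' (fun i => b (Sum.elim (fun j => Sum.inl j) (fun j => Sum.inr (Sum.inr j)) i))) ^ 2 +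
      ∑ j : β, ((b (Sum.inr (Sum.inl j)) : ℕ) : ℤ) ^ 2),
    (((hF.reindex _).pow 2).add (IsPoly.sum _ _ fun j _ => (IsPoly.var _).pow 2)).mul
      (((hF'.reindex _).pow 2).add (IsPoly.sum _ _ fun j _ => (IsPoly.var _).pow 2)), fun a => ?_⟩
  have key : ∀ w : β ⊕ β' → ℕ,
      (fun i => (Sum.elim a w) (Sum.elim (fun j => Sum.inl j) (fun j => Sum.inr (Sum.inl j)) i)) =
      Sum.elim a (fun j => w (Sum.inl j)) := by
    intro w; funext i; cases i <;> rfl
  have key' : ∀ w : β ⊕ β' → ℕ,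
      (fun i => (Sum.elim a w) (Sum.elim (fun j => Sum.inl j) (fun j => Sum.inr (Sum.inr j)) i)) =
      Sum.elim a (fun j => w (Sum.inr j)) := by
    intro w; funext i; cases i <;> rfl
  have hsq : ∀ (x : ℤ) (δ : Type) [Fintype δ] (u : δ → ℕ),
      x ^ 2 + ∑ j : δ, ((u j : ℕ) : ℤ) ^ 2 = 0 ↔ x = 0 ∧ u = fun _ => 0 := by
    intro x δ _ u
    have hs : 0 ≤ ∑ j : δ, ((u j : ℕ) : ℤ) ^ 2 := Finset.sum_nonneg fun j _ => sq_nonneg _
    constructor
    · intro h
      have hx : x ^ 2 = 0 := by nlinarith [sq_nonneg x]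
      have hy : ∑ j : δ, ((u j : ℕ) : ℤ) ^ 2 = 0 := by nlinarith [sq_nonneg x]
      refine ⟨by simpa using hx, ?_⟩
      funext j
      have := (Finset.sum_eq_zero_iff_of_nonneg (fun j _ => sq_nonneg ((u j : ℕ) : ℤ))).1 hy j
        (Finset.mem_univ j)
      simpa using this
    · rintro ⟨rfl, rfl⟩; simp
  simp only [key, key', Sum.elim_inr, mul_eq_zero, hsq]
  constructor
  · constructor
    · rintro (h1 | h1)
      · obtain ⟨w, hw⟩ := (H a).1.1 h1
        exact ⟨Sum.elim w (fun _ => 0), Or.inl ⟨by simpa using hw, by simp⟩⟩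
      · obtain ⟨w, hw⟩ := (H' a).1.1 h1
        exact ⟨Sum.elim (fun _ => 0) w, Or.inr ⟨by simpa using hw, by simp⟩⟩
    · rintro ⟨w, (⟨h1, _⟩ | ⟨h1, _⟩)⟩
      · exact Or.inl ((H a).1.2 ⟨_, h1⟩)
      · exact Or.inr ((H' a).1.2 ⟨_, h1⟩)
  · rintro w w' (⟨h1, h2⟩ | ⟨h1, h2⟩) (⟨h3, h4⟩ | ⟨h3, h4⟩)
    · have e1 := (H a).2 _ _ h1 h3
      funext i
      cases i with
      | inl i => exact congrFun e1 i
      | inr i => exact (congrFun h2 i).trans (congrFun h4 i).symm
    · exact absurd ((H' a).1.2 ⟨_, h3⟩) (hd a ((H a).1.2 ⟨_, h1⟩))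
    · exact absurd ((H' a).1.2 ⟨_, h1⟩) (hd a ((H a).1.2 ⟨_, h3⟩))
    · have e1 := (H' a).2 _ _ h1 h3
      funext i
      cases i with
      | inl i => exact (congrFun h2 i).trans (congrFun h4 i).symm
      | inr i => exact congrFun e1 i

/-- unique existential quantification over a finite family of naturals -/
theorem SFD.ex_fam [Fintype γ] (R : (α → ℕ) → (γ → ℕ) → Prop)
    (h : SFD (fun b : α ⊕ γ → ℕ => R (fun i => b (Sum.inl i)) (fun j => b (Sum.inr j))))
    (hu : ∀ a u v, R a u → R a v → u = v) : SFD (fun a => ∃ u, R a u) := by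
  obtain ⟨β, hβ, F, hF, H⟩ := h
  refine ⟨γ ⊕ β, inferInstance, fun b => F (fun i => b (Sum.elim
    (Sum.elim Sum.inl (fun j => Sum.inr (Sum.inl j))) (fun j => Sum.inr (Sum.inr j)) i)),
    hF.reindex _, fun a => ?_⟩
  have key : ∀ w : γ ⊕ β → ℕ, (fun i => (Sum.elim a w) (Sum.elim
      (Sum.elim Sum.inl (fun j => Sum.inr (Sum.inl j))) (fun j => Sum.inr (Sum.inr j)) i)) =
      Sum.elim (Sum.elim a (fun j => w (Sum.inl j))) (fun j => w (Sum.inr j)) := by
    intro w; funext i; rcases i with ((i | i) | i) <;> rfl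
  simp only [key]
  constructor
  · constructor
    · rintro ⟨u, hu⟩
      obtain ⟨w, hw⟩ := (H (Sum.elim a u)).1.1 (by simpa using hu)
      exact ⟨Sum.elim u w, by simpa using hw⟩
    · rintro ⟨w, hw⟩
      have := (H (Sum.elim a (fun j => w (Sum.inl j)))).1.2 ⟨_, hw⟩
      exact ⟨_, by simpa using this⟩
  · intro w w' h1 h2
    have r1 := (H (Sum.elim a (fun j => w (Sum.inl j)))).1.2 ⟨_, h1⟩
    have r2 := (H (Sum.elim a (fun j => w' (Sum.inl j)))).1.2 ⟨_, h2⟩
    have e := hu a (fun j => w (Sum.inl j)) (fun j => w' (Sum.inl j)) (by simpa using r1)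
      (by simpa using r2)
    rw [← e] at h2
    have e2 := (H (Sum.elim a (fun j => w (Sum.inl j)))).2 _ _ h1 h2
    funext i
    cases i with
    | inl i => exact congrFun e i
    | inr i => exact congrFun e2 i

/-- unique existential quantification over one natural number -/
theorem SFD.ex (R : (α → ℕ) → ℕ → Prop)
    (h : SFD (fun b : Option α → ℕ => R (fun i => b (some i)) (b none)))
    (hu : ∀ a x y, R a x → R a y → x = y) : SFD (fun a => ∃ x, R a x) := by
  have h' : SFD (fun b : α ⊕ Unit → ℕ => R (fun i => b (Sum.inl i)) (b (Sum.inr ()))) := by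
    have := h.reindex (α := α ⊕ Unit) (fun o : Option α => o.elim (Sum.inr ()) Sum.inl)
    simpa using this
  have := SFD.ex_fam (γ := Unit) (fun a u => R a (u ())) h' (fun a u v h1 h2 => by
    funext i; exact hu a _ _ h1 h2)
  refine this.congr fun a => ⟨fun ⟨x, hx⟩ => ⟨fun _ => x, hx⟩, fun ⟨u, hu⟩ => ⟨u (), hu⟩⟩

/-- substitution of SF functions in an SF relation -/
theorem SFD.subst [Fintype γ] {R : (γ → ℕ) → Prop} (hR : SFD R) {g : γ → (α → ℕ) → ℕ}
    (hg : ∀ i, SFF (g i)) : SFD (fun a : α → ℕ => R (fun i => g i a)) := by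
  classical
  -- conj over a finset of graphs
  have hconj : ∀ s : Finset γ, SFD (fun b : α ⊕ γ → ℕ =>
      ∀ i ∈ s, b (Sum.inr i) = g i (fun j => b (Sum.inl j))) := by
    intro s
    induction s using Finset.induction_on with
    | empty =>
      refine (SFD.of_poly (IsPoly.const (α := α ⊕ γ) 0)).congr fun a => by simp
    | insert i s hi ih =>
      have h1 : SFD (fun b : α ⊕ γ → ℕ => b (Sum.inr i) = g i (fun j => b (Sum.inl j))) := by
        have := (hg i).reindex (α := α ⊕ γ) (fun o : Option α => o.elim (Sum.inr i) Sum.inl)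
        simpa using this
      refine (h1.and ih).congr fun a => ?_
      simp
  have h2 : SFD (fun b : α ⊕ γ → ℕ => R (fun j => b (Sum.inr j)) ∧
      ∀ i ∈ (Finset.univ : Finset γ), b (Sum.inr i) = g i (fun j => b (Sum.inl j))) :=
    (hR.reindex Sum.inr).and (hconj Finset.univ)
  have h3 := SFD.ex_fam (γ := γ) (fun (a : α → ℕ) (u : γ → ℕ) => R u ∧
    ∀ i ∈ (Finset.univ : Finset γ), u i = g i a) h2 (fun a u v h1 h2 => by
      funext i; rw [h1.2 i (Finset.mem_univ i), h2.2 i (Finset.mem_univ i)])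
  refine h3.congr fun a => ⟨fun h => ⟨fun i => g i a, h, fun i _ => rfl⟩, fun ⟨u, h1, h2⟩ => ?_⟩
  have : u = fun i => g i a := by funext i; exact h2 i (Finset.mem_univ i)
  rw [this] at h1; exact h1

theorem SFF.reindex {δ : Type} {g : (γ → ℕ) → ℕ} (hg : SFF g) (r : γ → δ) :
    SFF (fun a : δ → ℕ => g (fun i => a (r i))) := by
  have := SFD.reindex (R := fun b : Option γ → ℕ => b none = g (fun i => b (some i))) hg
    (Option.map r)
  exact this

theorem SFF.of_poly {g : (α → ℕ) → ℕ} (h : IsPoly (fun a => (g a : ℤ))) : SFF g := by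
  have h1 : SFD (fun b : Option α → ℕ => ((b none : ℕ) : ℤ) = ((g (fun i => b (some i)) : ℕ) : ℤ)) :=
    SFD.poly_eq (IsPoly.var none) (h.reindex some)
  exact h1.congr fun a => by simp

theorem SFF.var (i : α) : SFF (fun a : α → ℕ => a i) := SFF.of_poly (IsPoly.var i)

theorem SFF.const (c : ℕ) : SFF (fun _ : α → ℕ => c) := SFF.of_poly (IsPoly.const (c : ℤ))

theorem SFF.subst [Fintype γ] {G : (γ → ℕ) → ℕ} (hG : SFF G) {g : γ → (α → ℕ) → ℕ}
    (hg : ∀ i, SFF (g i)) : SFF (fun a : α → ℕ => G (fun i => g i a)) := by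
  have := SFD.subst (α := Option α) (R := fun b : Option γ → ℕ => b none = G (fun i => b (some i)))
    hG (g := fun o => o.elim (fun b => b none) (fun i b => g i (fun j => b (some j)))) (by
      rintro (_ | i)
      · exact SFF.var none
      · exact (hg i).reindex some)
  exact this

theorem SFD.subst₁ {R : ℕ → Prop} (hR : SFD (fun b : Fin 1 → ℕ => R (b 0)))
    {f : (α → ℕ) → ℕ} (hf : SFF f) : SFD (fun a => R (f a)) :=
  SFD.subst hR (g := ![f]) (by intro i; fin_cases i; exact hf)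

theorem SFD.subst₂ {R : ℕ → ℕ → Prop} (hR : SFD (fun b : Fin 2 → ℕ => R (b 0) (b 1)))
    {f g : (α → ℕ) → ℕ} (hf : SFF f) (hg : SFF g) : SFD (fun a => R (f a) (g a)) :=
  SFD.subst hR (g := ![f, g]) (by intro i; fin_cases i; exacts [hf, hg])

theorem SFD.subst₃ {R : ℕ → ℕ → ℕ → Prop} (hR : SFD (fun b : Fin 3 → ℕ => R (b 0) (b 1) (b 2)))
    {f g h : (α → ℕ) → ℕ} (hf : SFF f) (hg : SFF g) (hh : SFF h) :
    SFD (fun a => R (f a) (g a) (h a)) :=
  SFD.subst hR (g := ![f, g, h]) (by intro i; fin_cases i; exacts [hf, hg, hh])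

theorem SFD.subst₄ {R : ℕ → ℕ → ℕ → ℕ → Prop}
    (hR : SFD (fun b : Fin 4 → ℕ => R (b 0) (b 1) (b 2) (b 3)))
    {f g h k : (α → ℕ) → ℕ} (hf : SFF f) (hg : SFF g) (hh : SFF h) (hk : SFF k) :
    SFD (fun a => R (f a) (g a) (h a) (k a)) :=
  SFD.subst hR (g := ![f, g, h, k]) (by intro i; fin_cases i; exacts [hf, hg, hh, hk])

theorem SFF.subst₁ {G : ℕ → ℕ} (hG : SFF (fun b : Fin 1 → ℕ => G (b 0)))
    {f : (α → ℕ) → ℕ} (hf : SFF f) : SFF (fun a => G (f a)) :=
  SFF.subst hG (g := ![f]) (by intro i; fin_cases i; exact hf)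

theorem SFF.subst₂ {G : ℕ → ℕ → ℕ} (hG : SFF (fun b : Fin 2 → ℕ => G (b 0) (b 1)))
    {f g : (α → ℕ) → ℕ} (hf : SFF f) (hg : SFF g) : SFF (fun a => G (f a) (g a)) :=
  SFF.subst hG (g := ![f, g]) (by intro i; fin_cases i; exacts [hf, hg])

theorem SFF.subst₃ {G : ℕ → ℕ → ℕ → ℕ} (hG : SFF (fun b : Fin 3 → ℕ => G (b 0) (b 1) (b 2)))
    {f g h : (α → ℕ) → ℕ} (hf : SFF f) (hg : SFF g) (hh : SFF h) :
    SFF (fun a => G (f a) (g a) (h a)) :=
  SFF.subst hG (g := ![f, g, h]) (by intro i; fin_cases i; exacts [hf, hg, hh])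

/-- graph characterisation with an explicit last variable: to prove `SFF G` it is enough to give an
`SFD` relation equivalent to the graph -/
theorem SFF.of_graph {G : (α → ℕ) → ℕ} {R : (Option α → ℕ) → Prop} (hR : SFD R)
    (h : ∀ b : Option α → ℕ, b none = G (fun i => b (some i)) ↔ R b) : SFF G :=
  hR.congr h

theorem SFD.true : SFD (fun _ : α → ℕ => True) :=
  (SFD.of_poly (IsPoly.const 0)).congr fun a => by simp

theorem SFD.false : SFD (fun _ : α → ℕ => False) :=
  (SFD.of_poly (IsPoly.const 1)).congr fun a => by simp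

theorem SFD.const (p : Prop) : SFD (fun _ : α → ℕ => p) := by
  by_cases h : p
  · exact SFD.true.congr fun a => by simp [h]
  · exact SFD.false.congr fun a => by simp [h]

section arith

variable {f g h : (α → ℕ) → ℕ}

theorem SFD.eq (hf : SFF f) (hg : SFF g) : SFD (fun a => f a = g a) :=
  SFD.subst₂ (R := fun x y => x = y) ((SFD.poly_eq (IsPoly.var 0) (IsPoly.var 1)).congr
    fun a => by simp) hf hg

theorem SFF.add (hf : SFF f) (hg : SFF g) : SFF (fun a => f a + g a) :=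
  SFF.subst₂ (G := fun x y => x + y) (SFF.of_poly (by
    simpa using (IsPoly.var (0 : Fin 2)).add (IsPoly.var 1))) hf hg

theorem SFF.mul (hf : SFF f) (hg : SFF g) : SFF (fun a => f a * g a) :=
  SFF.subst₂ (G := fun x y => x * y) (SFF.of_poly (by
    simpa using (IsPoly.var (0 : Fin 2)).mul (IsPoly.var 1))) hf hg

theorem SFF.npow (hf : SFF f) (n : ℕ) : SFF (fun a => f a ^ n) :=
  SFF.subst₁ (G := fun x => x ^ n) (SFF.of_poly (by
    simpa using (IsPoly.var (0 : Fin 1)).pow n)) hf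

theorem SFF.sum {ι : Type} (s : Finset ι) (F : ι → (α → ℕ) → ℕ) (h : ∀ i ∈ s, SFF (F i)) :
    SFF (fun a => ∑ i ∈ s, F i a) := by
  classical
  induction s using Finset.induction_on with
  | empty => simpa using SFF.const (α := α) 0
  | insert i s hi ih =>
    simp_rw [Finset.sum_insert hi]
    exact (h i (Finset.mem_insert_self i s)).add (ih fun j hj => h j (Finset.mem_insert_of_mem hj))

theorem SFD.forall_finset {ι : Type} (s : Finset ι) (R : ι → (α → ℕ) → Prop)
    (h : ∀ i ∈ s, SFD (R i)) : SFD (fun a => ∀ i ∈ s, R i a) := by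
  classical
  induction s using Finset.induction_on with
  | empty => exact SFD.true.congr fun a => by simp
  | insert i s hi ih =>
    refine ((h i (Finset.mem_insert_self i s)).and
      (ih fun j hj => h j (Finset.mem_insert_of_mem hj))).congr fun a => ?_
    simp

theorem SFD.lt (hf : SFF f) (hg : SFF g) : SFD (fun a => f a < g a) := by
  refine SFD.subst₂ (R := fun x y => x < y) ?_ hf hg
  have : SFD (fun b : Fin 2 → ℕ => ∃ x, b 1 = b 0 + x + 1) := by
    refine SFD.ex (fun (b : Fin 2 → ℕ) x => b 1 = b 0 + x + 1) ?_ (by intro a x y h1 h2; omega)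
    exact SFD.eq (SFF.var _) (((SFF.var _).add (SFF.var _)).add (SFF.const 1))
  exact this.congr fun a => ⟨fun h => ⟨a 1 - a 0 - 1, by omega⟩, fun ⟨x, hx⟩ => by omega⟩

theorem SFD.le (hf : SFF f) (hg : SFF g) : SFD (fun a => f a ≤ g a) := by
  refine (SFD.lt hf (hg.add (SFF.const 1))).congr fun a => ?_
  omega

theorem SFD.ne (hf : SFF f) (hg : SFF g) : SFD (fun a => f a ≠ g a) := by
  refine ((SFD.lt hf hg).or (SFD.lt hg hf) (fun a h1 h2 => by omega)).congr fun a => ?_
  omega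

theorem SFD.pos (hf : SFF f) : SFD (fun a => 0 < f a) := SFD.lt (SFF.const 0) hf

/-- disjoint case distinction for graphs -/
theorem SFF.ite {c : (α → ℕ) → Prop} [∀ a, Decidable (c a)] (hc : SFD c) (hn : SFD (fun a => ¬ c a))
    (hf : SFF f) (hg : SFF g) : SFF (fun a => if c a then f a else g a) := by
  have h1 : SFD (fun b : Option α → ℕ => c (fun i => b (some i)) ∧ b none = f (fun i => b (some i))) :=
    (hc.reindex some).and hf
  have h2 : SFD (fun b : Option α → ℕ => ¬ c (fun i => b (some i)) ∧ b none = g (fun i => b (some i))) :=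
    (hn.reindex some).and hg
  refine (h1.or h2 (fun a h1 h2 => h2.1 h1.1)).congr fun a => ?_
  by_cases hca : c (fun i => a (some i)) <;> simp [hca]

theorem SFF.sub (hf : SFF f) (hg : SFF g) : SFF (fun a => f a - g a) := by
  refine SFF.subst₂ (G := fun x y => x - y) ?_ hf hg
  have h1 : SFD (fun b : Option (Fin 2) → ℕ => b (some 0) ≤ b (some 1) ∧ b none = 0) :=
    (SFD.le (SFF.var _) (SFF.var _)).and (SFD.eq (SFF.var _) (SFF.const 0))
  have h2 : SFD (fun b : Option (Fin 2) → ℕ => b (some 1) < b (some 0) ∧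
      b (some 0) = b (some 1) + b none) :=
    (SFD.lt (SFF.var _) (SFF.var _)).and (SFD.eq (SFF.var _) ((SFF.var _).add (SFF.var _)))
  refine (h1.or h2 (fun a h1 h2 => by omega)).congr fun a => ?_
  show a none = a (some 0) - a (some 1) ↔ _
  omega

theorem SFF.div (hf : SFF f) (hg : SFF g) : SFF (fun a => f a / g a) := by
  refine SFF.subst₂ (G := fun x y => x / y) ?_ hf hg
  have h1 : SFD (fun b : Option (Fin 2) → ℕ => b (some 1) = 0 ∧ b none = 0) :=
    (SFD.eq (SFF.var _) (SFF.const 0)).and (SFD.eq (SFF.var _) (SFF.const 0))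
  have h2 : SFD (fun b : Option (Fin 2) → ℕ => 0 < b (some 1) ∧
      b (some 1) * b none ≤ b (some 0) ∧ b (some 0) < b (some 1) * (b none + 1)) :=
    (SFD.pos (SFF.var _)).and ((SFD.le ((SFF.var _).mul (SFF.var _)) (SFF.var _)).and
      (SFD.lt (SFF.var _) ((SFF.var _).mul ((SFF.var _).add (SFF.const 1)))))
  refine (h1.or h2 (fun a h1 h2 => by omega)).congr fun a => ?_
  rcases Nat.eq_zero_or_pos (a (some 1)) with h0 | h0
  · simp [h0]
  · constructor
    · intro h
      right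
      refine ⟨h0, ?_, ?_⟩
      · rw [h]; exact Nat.mul_div_le _ _
      · rw [h]; exact Nat.lt_mul_div_succ _ h0
    · rintro (⟨h1, _⟩ | ⟨_, h1, h2⟩)
      · omega
      · symm
        apply Nat.div_eq_of_lt_le
        · rw [mul_comm]; exact h1
        · rw [mul_comm]; exact h2

theorem SFF.mod (hf : SFF f) (hg : SFF g) : SFF (fun a => f a % g a) := by
  have h := hf.sub (hg.mul (hf.div hg))
  have e : (fun a => f a % g a) = fun a => f a - g a * (f a / g a) := by
    funext a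
    have := Nat.div_add_mod (f a) (g a)
    omega
  rw [e]; exact h

theorem SFD.dvd (hf : SFF f) (hg : SFF g) : SFD (fun a => f a ∣ g a) := by
  refine (SFD.eq (hg.mod hf) (SFF.const 0)).congr fun a => ?_
  exact Nat.dvd_iff_mod_eq_zero

theorem SFD.modEq (hf : SFF f) (hg : SFF g) (hh : SFF h) :
    SFD (fun a => f a ≡ g a [MOD h a]) :=
  SFD.eq (hf.mod hh) (hg.mod hh)

theorem SFF.natPair (hf : SFF f) (hg : SFF g) : SFF (fun a => Nat.pair (f a) (g a)) := by
  have := SFF.ite (SFD.lt hf hg) ((SFD.le hg hf).congr fun a => by simp)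
    ((hg.mul hg).add hf) (((hf.mul hf).add hf).add hg)
  exact this

theorem SFF.unpair1 (hf : SFF f) : SFF (fun a => (Nat.unpair (f a)).1) := by
  refine SFF.subst₁ (G := fun x => (Nat.unpair x).1) ?_ hf
  have h : SFD (fun b : Option (Fin 1) → ℕ => ∃ y, Nat.pair (b none) y = b (some 0)) := by
    refine SFD.ex (fun (b : Option (Fin 1) → ℕ) y => Nat.pair (b none) y = b (some 0)) ?_ ?_
    · exact SFD.eq (SFF.natPair (SFF.var _) (SFF.var _)) (SFF.var _)
    · intro a x y h1 h2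
      exact (Nat.pair_eq_pair.1 (h1.trans h2.symm)).2
  refine h.congr fun a => ⟨fun h => ⟨(Nat.unpair (a (some 0))).2, ?_⟩, ?_⟩
  · rw [h]; exact Nat.pair_unpair _
  · rintro ⟨y, hy⟩
    show a none = (Nat.unpair (a (some 0))).1
    rw [← hy]; simp

theorem SFF.unpair2 (hf : SFF f) : SFF (fun a => (Nat.unpair (f a)).2) := by
  refine SFF.subst₁ (G := fun x => (Nat.unpair x).2) ?_ hf
  have h : SFD (fun b : Option (Fin 1) → ℕ => ∃ y, Nat.pair y (b none) = b (some 0)) := by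
    refine SFD.ex (fun (b : Option (Fin 1) → ℕ) y => Nat.pair y (b none) = b (some 0)) ?_ ?_
    · exact SFD.eq (SFF.natPair (SFF.var _) (SFF.var _)) (SFF.var _)
    · intro a x y h1 h2
      exact (Nat.pair_eq_pair.1 (h1.trans h2.symm)).1
  refine h.congr fun a => ⟨fun h => ⟨(Nat.unpair (a (some 0))).1, ?_⟩, ?_⟩
  · rw [h]; exact Nat.pair_unpair _
  · rintro ⟨y, hy⟩
    show a none = (Nat.unpair (a (some 0))).2
    rw [← hy]; simp

theorem coprime_of_mod {x y s : ℕ} (h : (s * y) % x = 1) : Nat.Coprime x y := by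
  have : Nat.gcd x y ∣ 1 := by
    rw [← h]
    exact (Nat.dvd_mod_iff (Nat.gcd_dvd_left _ _)).2 ((Nat.gcd_dvd_right _ _).mul_left s)
  exact Nat.dvd_one.1 this

theorem SFD.coprime (hf : SFF f) (hg : SFF g) : SFD (fun a => Nat.Coprime (f a) (g a)) := by
  refine SFD.subst₂ (R := fun x y => Nat.Coprime x y) ?_ hf hg
  have h0 : SFD (fun b : Fin 2 → ℕ => b 0 = 0 ∧ b 1 = 1) :=
    (SFD.eq (SFF.var _) (SFF.const 0)).and (SFD.eq (SFF.var _) (SFF.const 1))
  have h1 : SFD (fun b : Fin 2 → ℕ => b 0 = 1) := SFD.eq (SFF.var _) (SFF.const 1)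
  have h2 : SFD (fun b : Fin 2 → ℕ => ∃ s, 2 ≤ b 0 ∧ s < b 0 ∧ (s * b 1) % b 0 = 1) := by
    refine SFD.ex (fun (b : Fin 2 → ℕ) s => 2 ≤ b 0 ∧ s < b 0 ∧ (s * b 1) % b 0 = 1) ?_ ?_
    · exact (SFD.le (SFF.const 2) (SFF.var _)).and ((SFD.lt (SFF.var _) (SFF.var _)).and
        (SFD.eq (((SFF.var _).mul (SFF.var _)).mod (SFF.var _)) (SFF.const 1)))
    · rintro a x y ⟨h1, h2, h3⟩ ⟨_, h5, h6⟩
      have hc : Nat.Coprime (a 0) (a 1) := coprime_of_mod h3
      have hm : x * a 1 ≡ y * a 1 [MOD a 0] := by unfold Nat.ModEq; rw [h3, h6]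
      have := Nat.ModEq.cancel_right_of_coprime hc hm
      exact Nat.ModEq.eq_of_lt_of_lt this h2 h5
  have h01 := h0.or (h1.or h2 (fun a h1 ⟨s, h2, _⟩ => by omega)) (fun a h0 h => by
    rcases h with h | ⟨s, h2, _⟩ <;> omega)
  refine h01.congr fun a => ?_
  constructor
  · intro hc
    by_cases e0 : a 0 = 0
    · left; exact ⟨e0, by simpa [e0] using hc⟩
    · right
      by_cases e1 : a 0 = 1
      · left; exact e1
      · right
        obtain ⟨s, hs1, hs2⟩ := Nat.exists_mul_mod_eq_one_of_coprime (k := a 0) (n := a 1) hc.symm (by omega)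
        exact ⟨s, by omega, hs1, by rw [mul_comm]; exact hs2⟩
  · rintro (⟨e0, e1⟩ | e1 | ⟨s, e1, e2, e3⟩)
    · rw [e1]; exact Nat.coprime_one_right _
    · rw [e1]; exact Nat.coprime_one_left _
    · exact coprime_of_mod e3

end arith

end Crest.Agent.SF
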