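import Mathlib

/-!
# Row 323: the real curve `c² + 5S² = 1`, `d² - 5S² = 1` and its group law (Jacobi)
-/

set_option autoImplicit false
set_option maxHeartbeats 4000000

namespace Crest.Agent.SF

theorem cl1 (S1 c1 d1 S2 c2 d2 : ℝ) (h1 : c1^2+5*S1^2=1) (g1 : d1^2-5*S1^2=1)
    (h2 : c2^2+5*S2^2=1) (g2 : d2^2-5*S2^2=1) :
    (c1*c2-5*S1*S2*d1*d2)^2+5*(S1*c2*d2+S2*c1*d1)^2=(1+25*S1^2*S2^2)^2 := by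
  grind

theorem cl2 (S1 c1 d1 S2 c2 d2 : ℝ) (h1 : c1^2+5*S1^2=1) (g1 : d1^2-5*S1^2=1)
    (h2 : c2^2+5*S2^2=1) (g2 : d2^2-5*S2^2=1) :
    (d1*d2+5*S1*S2*c1*c2)^2-5*(S1*c2*d2+S2*c1*d1)^2=(1+25*S1^2*S2^2)^2 := by
  grind

theorem asS (S1 c1 d1 S2 c2 d2 S3 c3 d3 : ℝ) (h1 : c1^2=1-5*S1^2) (g1 : d1^2=1+5*S1^2)
    (h2 : c2^2=1-5*S2^2) (g2 : d2^2=1+5*S2^2) (h3 : c3^2=1-5*S3^2) (g3 : d3^2=1+5*S3^2):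
  ((S1*c2*d2+S2*c1*d1)*(1+25*S1^2*S2^2)*c3*d3+S3*(c1*c2-5*S1*S2*d1*d2)*(d1*d2+5*S1*S2*c1*c2))*
   ((1+25*S2^2*S3^2)^2+25*(S2*c3*d3+S3*c2*d2)^2*S1^2)
  = ((S2*c3*d3+S3*c2*d2)*(1+25*S2^2*S3^2)*c1*d1+S1*(c2*c3-5*S2*S3*d2*d3)*(d2*d3+5*S2*S3*c2*c3))*
   ((1+25*S1^2*S2^2)^2+25*(S1*c2*d2+S2*c1*d1)^2*S3^2) := by
  grind

theorem asc (S1 c1 d1 S2 c2 d2 S3 c3 d3 : ℝ) (h1 : c1^2=1-5*S1^2) (g1 : d1^2=1+5*S1^2)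
    (h2 : c2^2=1-5*S2^2) (g2 : d2^2=1+5*S2^2) (h3 : c3^2=1-5*S3^2) (g3 : d3^2=1+5*S3^2):
  ((1+25*S1^2*S2^2)*(c1*c2-5*S1*S2*d1*d2)*c3-5*(S1*c2*d2+S2*c1*d1)*S3*(d1*d2+5*S1*S2*c1*c2)*d3)*
   ((1+25*S2^2*S3^2)^2+25*(S2*c3*d3+S3*c2*d2)^2*S1^2)
  = ((1+25*S2^2*S3^2)*(c2*c3-5*S2*S3*d2*d3)*c1-5*(S2*c3*d3+S3*c2*d2)*S1*(d2*d3+5*S2*S3*c2*c3)*d1)*
   ((1+25*S1^2*S2^2)^2+25*(S1*c2*d2+S2*c1*d1)^2*S3^2) := by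
  grind

theorem asd (S1 c1 d1 S2 c2 d2 S3 c3 d3 : ℝ) (h1 : c1^2=1-5*S1^2) (g1 : d1^2=1+5*S1^2)
    (h2 : c2^2=1-5*S2^2) (g2 : d2^2=1+5*S2^2) (h3 : c3^2=1-5*S3^2) (g3 : d3^2=1+5*S3^2):
  ((1+25*S1^2*S2^2)*(d1*d2+5*S1*S2*c1*c2)*d3+5*(S1*c2*d2+S2*c1*d1)*S3*(c1*c2-5*S1*S2*d1*d2)*c3)*
   ((1+25*S2^2*S3^2)^2+25*(S2*c3*d3+S3*c2*d2)^2*S1^2)
  = ((1+25*S2^2*S3^2)*(d2*d3+5*S2*S3*c2*c3)*d1+5*(S2*c3*d3+S3*c2*d2)*S1*(c2*c3-5*S2*S3*d2*d3)*c1)*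
   ((1+25*S1^2*S2^2)^2+25*(S1*c2*d2+S2*c1*d1)^2*S3^2) := by
  grind

/-- a real point of the curve `c² + 5S² = 1`, `d² - 5S² = 1` -/
@[ext] structure CPt where
  S : ℝ
  c : ℝ
  d : ℝ
  h1 : c ^ 2 + 5 * S ^ 2 = 1
  h2 : d ^ 2 - 5 * S ^ 2 = 1

namespace CPt

theorem den_pos (S1 S2 : ℝ) : 0 < 1 + 25 * S1 ^ 2 * S2 ^ 2 := by positivity

theorem den_ne (S1 S2 : ℝ) : 1 + 25 * S1 ^ 2 * S2 ^ 2 ≠ 0 := (den_pos S1 S2).ne'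

/-- addition -/
noncomputable def add (p q : CPt) : CPt where
  S := (p.S * q.c * q.d + q.S * p.c * p.d) / (1 + 25 * p.S ^ 2 * q.S ^ 2)
  c := (p.c * q.c - 5 * p.S * q.S * p.d * q.d) / (1 + 25 * p.S ^ 2 * q.S ^ 2)
  d := (p.d * q.d + 5 * p.S * q.S * p.c * q.c) / (1 + 25 * p.S ^ 2 * q.S ^ 2)
  h1 := by
    have h := cl1 p.S p.c p.d q.S q.c q.d p.h1 p.h2 q.h1 q.h2
    have hd := den_ne p.S q.S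
    rw [div_pow, div_pow, ← mul_div_assoc, ← add_div, h, div_self (pow_ne_zero 2 hd)]
  h2 := by
    have h := cl2 p.S p.c p.d q.S q.c q.d p.h1 p.h2 q.h1 q.h2
    have hd := den_ne p.S q.S
    rw [div_pow, div_pow, ← mul_div_assoc, ← sub_div, h, div_self (pow_ne_zero 2 hd)]

noncomputable instance : Add CPt := ⟨add⟩

instance : Zero CPt := ⟨⟨0, 1, 1, by norm_num, by norm_num⟩⟩

instance : Neg CPt := ⟨fun p => ⟨-p.S, p.c, p.d, by have := p.h1; nlinarith, by have := p.h2; nlinarith⟩⟩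

@[simp] theorem zero_S : (0 : CPt).S = 0 := rfl
@[simp] theorem zero_c : (0 : CPt).c = 1 := rfl
@[simp] theorem zero_d : (0 : CPt).d = 1 := rfl
@[simp] theorem neg_S (p : CPt) : (-p).S = -p.S := rfl
@[simp] theorem neg_c (p : CPt) : (-p).c = p.c := rfl
@[simp] theorem neg_d (p : CPt) : (-p).d = p.d := rfl

theorem add_S (p q : CPt) :
    (p + q).S = (p.S * q.c * q.d + q.S * p.c * p.d) / (1 + 25 * p.S ^ 2 * q.S ^ 2) := rfl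

theorem add_c (p q : CPt) :
    (p + q).c = (p.c * q.c - 5 * p.S * q.S * p.d * q.d) / (1 + 25 * p.S ^ 2 * q.S ^ 2) := rfl

theorem add_d (p q : CPt) :
    (p + q).d = (p.d * q.d + 5 * p.S * q.S * p.c * q.c) / (1 + 25 * p.S ^ 2 * q.S ^ 2) := rfl

theorem add_comm' (p q : CPt) : p + q = q + p := by
  ext
  · rw [add_S, add_S]; ring_nf
  · rw [add_c, add_c]; ring_nf
  · rw [add_d, add_d]; ring_nf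

theorem zero_add' (p : CPt) : 0 + p = p := by
  ext
  · rw [add_S]; simp
  · rw [add_c]; simp
  · rw [add_d]; simp

theorem neg_add' (p : CPt) : -p + p = 0 := by
  have h1 := p.h1
  have h2 := p.h2
  have hd := den_ne p.S p.S
  ext
  · rw [add_S]; simp
  · rw [add_c]
    simp only [neg_S, neg_c, neg_d, zero_c]
    rw [div_eq_iff (by rw [neg_sq]; exact hd)]
    have e1 : p.c ^ 2 = 1 - 5 * p.S ^ 2 := by linarith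
    have e2 : p.d ^ 2 = 1 + 5 * p.S ^ 2 := by linarith
    calc p.c * p.c - 5 * -p.S * p.S * p.d * p.d = p.c ^ 2 + 5 * p.S ^ 2 * p.d ^ 2 := by ring
      _ = _ := by rw [e1, e2]; ring
  · rw [add_d]
    simp only [neg_S, neg_c, neg_d, zero_d]
    rw [div_eq_iff (by rw [neg_sq]; exact hd)]
    have e1 : p.c ^ 2 = 1 - 5 * p.S ^ 2 := by linarith
    have e2 : p.d ^ 2 = 1 + 5 * p.S ^ 2 := by linarith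
    calc p.d * p.d + 5 * -p.S * p.S * p.c * p.c = p.d ^ 2 - 5 * p.S ^ 2 * p.c ^ 2 := by ring
      _ = _ := by rw [e1, e2]; ring

theorem add_assoc' (p q r : CPt) : p + q + r = p + (q + r) := by
  obtain ⟨S1, c1, d1, h1, g1⟩ := p
  obtain ⟨S2, c2, d2, h2, g2⟩ := q
  obtain ⟨S3, c3, d3, h3, g3⟩ := r
  have h1' : c1 ^ 2 = 1 - 5 * S1 ^ 2 := by linarith
  have h2' : c2 ^ 2 = 1 - 5 * S2 ^ 2 := by linarith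
  have h3' : c3 ^ 2 = 1 - 5 * S3 ^ 2 := by linarith
  have g1' : d1 ^ 2 = 1 + 5 * S1 ^ 2 := by linarith
  have g2' : d2 ^ 2 = 1 + 5 * S2 ^ 2 := by linarith
  have g3' : d3 ^ 2 = 1 + 5 * S3 ^ 2 := by linarith
  have hD12 : 1 + 25 * S1 ^ 2 * S2 ^ 2 ≠ 0 := den_ne S1 S2
  have hD23 : 1 + 25 * S2 ^ 2 * S3 ^ 2 ≠ 0 := den_ne S2 S3
  have hL : (1 + 25 * S1 ^ 2 * S2 ^ 2) ^ 2 + 25 * (S1 * c2 * d2 + S2 * c1 * d1) ^ 2 * S3 ^ 2 ≠ 0 := by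
    positivity
  have hR : (1 + 25 * S2 ^ 2 * S3 ^ 2) ^ 2 + 25 * (S2 * c3 * d3 + S3 * c2 * d2) ^ 2 * S1 ^ 2 ≠ 0 := by
    positivity
  ext
  · rw [add_S, add_S]
    simp only [add_S, add_c, add_d]
    have e1 : ((S1 * c2 * d2 + S2 * c1 * d1) / (1 + 25 * S1 ^ 2 * S2 ^ 2) * c3 * d3 +
        S3 * ((c1 * c2 - 5 * S1 * S2 * d1 * d2) / (1 + 25 * S1 ^ 2 * S2 ^ 2)) *
          ((d1 * d2 + 5 * S1 * S2 * c1 * c2) / (1 + 25 * S1 ^ 2 * S2 ^ 2))) /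
        (1 + 25 * ((S1 * c2 * d2 + S2 * c1 * d1) / (1 + 25 * S1 ^ 2 * S2 ^ 2)) ^ 2 * S3 ^ 2) =
        ((S1*c2*d2+S2*c1*d1)*(1+25*S1^2*S2^2)*c3*d3+S3*(c1*c2-5*S1*S2*d1*d2)*(d1*d2+5*S1*S2*c1*c2)) /
          ((1 + 25 * S1 ^ 2 * S2 ^ 2) ^ 2 + 25 * (S1 * c2 * d2 + S2 * c1 * d1) ^ 2 * S3 ^ 2) := by
      rw [div_eq_div_iff (by positivity) hL]; field_simp
    have e2 : (S1 * ((c2 * c3 - 5 * S2 * S3 * d2 * d3) / (1 + 25 * S2 ^ 2 * S3 ^ 2)) *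
          ((d2 * d3 + 5 * S2 * S3 * c2 * c3) / (1 + 25 * S2 ^ 2 * S3 ^ 2)) +
        (S2 * c3 * d3 + S3 * c2 * d2) / (1 + 25 * S2 ^ 2 * S3 ^ 2) * c1 * d1) /
        (1 + 25 * S1 ^ 2 * ((S2 * c3 * d3 + S3 * c2 * d2) / (1 + 25 * S2 ^ 2 * S3 ^ 2)) ^ 2) =
        ((S2*c3*d3+S3*c2*d2)*(1+25*S2^2*S3^2)*c1*d1+S1*(c2*c3-5*S2*S3*d2*d3)*(d2*d3+5*S2*S3*c2*c3)) /
          ((1 + 25 * S2 ^ 2 * S3 ^ 2) ^ 2 + 25 * (S2 * c3 * d3 + S3 * c2 * d2) ^ 2 * S1 ^ 2) := by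
      rw [div_eq_div_iff (by positivity) hR]; field_simp; ring
    rw [e1, e2, div_eq_div_iff hL hR]
    exact asS S1 c1 d1 S2 c2 d2 S3 c3 d3 h1' g1' h2' g2' h3' g3'
  · rw [add_c, add_c]
    simp only [add_S, add_c, add_d]
    have e1 : ((c1 * c2 - 5 * S1 * S2 * d1 * d2) / (1 + 25 * S1 ^ 2 * S2 ^ 2) * c3 -
        5 * ((S1 * c2 * d2 + S2 * c1 * d1) / (1 + 25 * S1 ^ 2 * S2 ^ 2)) * S3 *
          ((d1 * d2 + 5 * S1 * S2 * c1 * c2) / (1 + 25 * S1 ^ 2 * S2 ^ 2)) * d3) /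
        (1 + 25 * ((S1 * c2 * d2 + S2 * c1 * d1) / (1 + 25 * S1 ^ 2 * S2 ^ 2)) ^ 2 * S3 ^ 2) =
        ((1+25*S1^2*S2^2)*(c1*c2-5*S1*S2*d1*d2)*c3-5*(S1*c2*d2+S2*c1*d1)*S3*(d1*d2+5*S1*S2*c1*c2)*d3) /
          ((1 + 25 * S1 ^ 2 * S2 ^ 2) ^ 2 + 25 * (S1 * c2 * d2 + S2 * c1 * d1) ^ 2 * S3 ^ 2) := by
      rw [div_eq_div_iff (by positivity) hL]; field_simp
    have e2 : (c1 * ((c2 * c3 - 5 * S2 * S3 * d2 * d3) / (1 + 25 * S2 ^ 2 * S3 ^ 2)) -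
        5 * S1 * ((S2 * c3 * d3 + S3 * c2 * d2) / (1 + 25 * S2 ^ 2 * S3 ^ 2)) * d1 *
          ((d2 * d3 + 5 * S2 * S3 * c2 * c3) / (1 + 25 * S2 ^ 2 * S3 ^ 2))) /
        (1 + 25 * S1 ^ 2 * ((S2 * c3 * d3 + S3 * c2 * d2) / (1 + 25 * S2 ^ 2 * S3 ^ 2)) ^ 2) =
        ((1+25*S2^2*S3^2)*(c2*c3-5*S2*S3*d2*d3)*c1-5*(S2*c3*d3+S3*c2*d2)*S1*(d2*d3+5*S2*S3*c2*c3)*d1) /
          ((1 + 25 * S2 ^ 2 * S3 ^ 2) ^ 2 + 25 * (S2 * c3 * d3 + S3 * c2 * d2) ^ 2 * S1 ^ 2) := by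
      rw [div_eq_div_iff (by positivity) hR]; field_simp
    rw [e1, e2, div_eq_div_iff hL hR]
    exact asc S1 c1 d1 S2 c2 d2 S3 c3 d3 h1' g1' h2' g2' h3' g3'
  · rw [add_d, add_d]
    simp only [add_S, add_c, add_d]
    have e1 : ((d1 * d2 + 5 * S1 * S2 * c1 * c2) / (1 + 25 * S1 ^ 2 * S2 ^ 2) * d3 +
        5 * ((S1 * c2 * d2 + S2 * c1 * d1) / (1 + 25 * S1 ^ 2 * S2 ^ 2)) * S3 *
          ((c1 * c2 - 5 * S1 * S2 * d1 * d2) / (1 + 25 * S1 ^ 2 * S2 ^ 2)) * c3) /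
        (1 + 25 * ((S1 * c2 * d2 + S2 * c1 * d1) / (1 + 25 * S1 ^ 2 * S2 ^ 2)) ^ 2 * S3 ^ 2) =
        ((1+25*S1^2*S2^2)*(d1*d2+5*S1*S2*c1*c2)*d3+5*(S1*c2*d2+S2*c1*d1)*S3*(c1*c2-5*S1*S2*d1*d2)*c3) /
          ((1 + 25 * S1 ^ 2 * S2 ^ 2) ^ 2 + 25 * (S1 * c2 * d2 + S2 * c1 * d1) ^ 2 * S3 ^ 2) := by
      rw [div_eq_div_iff (by positivity) hL]; field_simp
    have e2 : (d1 * ((d2 * d3 + 5 * S2 * S3 * c2 * c3) / (1 + 25 * S2 ^ 2 * S3 ^ 2)) +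
        5 * S1 * ((S2 * c3 * d3 + S3 * c2 * d2) / (1 + 25 * S2 ^ 2 * S3 ^ 2)) * c1 *
          ((c2 * c3 - 5 * S2 * S3 * d2 * d3) / (1 + 25 * S2 ^ 2 * S3 ^ 2))) /
        (1 + 25 * S1 ^ 2 * ((S2 * c3 * d3 + S3 * c2 * d2) / (1 + 25 * S2 ^ 2 * S3 ^ 2)) ^ 2) =
        ((1+25*S2^2*S3^2)*(d2*d3+5*S2*S3*c2*c3)*d1+5*(S2*c3*d3+S3*c2*d2)*S1*(c2*c3-5*S2*S3*d2*d3)*c1) /
          ((1 + 25 * S2 ^ 2 * S3 ^ 2) ^ 2 + 25 * (S2 * c3 * d3 + S3 * c2 * d2) ^ 2 * S1 ^ 2) := by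
      rw [div_eq_div_iff (by positivity) hR]; field_simp
    rw [e1, e2, div_eq_div_iff hL hR]
    exact asd S1 c1 d1 S2 c2 d2 S3 c3 d3 h1' g1' h2' g2' h3' g3'

noncomputable instance : AddCommGroup CPt where
  add_assoc := add_assoc'
  zero_add := zero_add'
  add_zero p := by rw [add_comm', zero_add']
  nsmul := nsmulRec
  zsmul := zsmulRec
  neg_add_cancel := neg_add'
  add_comm := add_comm'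

end CPt

end Crest.Agent.SF
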