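import Crest.Agent.SF.CurveIntA

/-!
# Chunk R323-CURVEINTB (you may use `sol_facts`)
-/

set_option autoImplicit false

namespace Crest.Agent.SF

/-- `gcd(2 D v u w, v⁴ + 25 D⁴) = 1`: a prime `p` dividing `v⁴ + 25 D⁴` and `2`: the number is odd
(`v` odd, `D` even); `p ∣ D`: then `p ∣ v`; `p ∣ v`: then `p ∣ 25 D⁴`, `p = 5` excluded, `p ∣ D`;
`p ∣ u`: `v² ≡ 5D²` so `v⁴ + 25D⁴ ≡ 50 D⁴`: `p = 2, 5` or `p ∣ D`, all excluded; `p ∣ w`:
`v² ≡ -5D²`, the same. -/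
theorem double_coprime {D u v w : ℤ} (h1 : u ^ 2 + 5 * D ^ 2 = v ^ 2)
    (h2 : v ^ 2 + 5 * D ^ 2 = w ^ 2) (hc : IsCoprime D v) :
    IsCoprime (2 * D * v * u * w) (v ^ 4 + 25 * D ^ 4) := by
  obtain ⟨hD, hv, hu, hw, h5v, h5u, h5w, cuv, cwv, cuD, cwD, cuw⟩ := sol_facts h1 h2 hc
  have hp5 : Prime (5 : ℤ) := Int.prime_iff_natAbs_prime.2 (by norm_num)
  have hp2 : Prime (2 : ℤ) := Int.prime_two
  have c5v : IsCoprime (5 : ℤ) v := coprime_prime_of_not_dvd hp5 h5v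
  have c5u : IsCoprime (5 : ℤ) u := coprime_prime_of_not_dvd hp5 h5u
  have c5w : IsCoprime (5 : ℤ) w := coprime_prime_of_not_dvd hp5 h5w
  have c2u : IsCoprime (2 : ℤ) u := coprime_prime_of_not_dvd hp2 (fun h =>
    (Int.not_even_iff_odd.2 hu) (even_iff_two_dvd.2 h))
  have c2w : IsCoprime (2 : ℤ) w := coprime_prime_of_not_dvd hp2 (fun h =>
    (Int.not_even_iff_odd.2 hw) (even_iff_two_dvd.2 h))
  have c25 : ∀ x : ℤ, IsCoprime (5 : ℤ) x → IsCoprime x 25 := by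
    intro x hx
    have : IsCoprime x ((5 : ℤ) ^ 2) := hx.symm.pow_right
    norm_num at this
    exact this
  have n2 : IsCoprime (2 : ℤ) (v ^ 4 + 25 * D ^ 4) := by
    apply coprime_prime_of_not_dvd hp2
    intro h
    rw [← even_iff_two_dvd] at h
    have h3 : Odd (v ^ 4 + 25 * D ^ 4) :=
      hv.pow.add_even ((hD.pow_of_ne_zero (by norm_num)).mul_left 25)
    exact (Int.not_even_iff_odd.2 h3) h
  have nD : IsCoprime D (v ^ 4 + 25 * D ^ 4) :=
    isCoprime_add_mul_of (hc.pow_right (n := 4)) (t := 25 * D ^ 3) (by ring)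
  have nv : IsCoprime v (v ^ 4 + 25 * D ^ 4) := by
    have h3 : IsCoprime v (25 * D ^ 4) := (c25 v c5v).mul_right hc.symm.pow_right
    exact isCoprime_add_mul_of h3 (t := v ^ 3) (by ring)
  have key : ∀ x : ℤ, IsCoprime (2 : ℤ) x → IsCoprime (5 : ℤ) x → IsCoprime x D →
      IsCoprime x (50 * D ^ 4) := by
    intro x hx2 hx5 hxD
    have h3 : IsCoprime x (2 * 25) := hx2.symm.mul_right (c25 x hx5)
    norm_num at h3
    exact h3.mul_right hxD.pow_right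
  have nu : IsCoprime u (v ^ 4 + 25 * D ^ 4) := by
    refine isCoprime_add_mul_of (key u c2u c5u cuD) (t := u * (u ^ 2 + 10 * D ^ 2)) ?_
    have : v ^ 4 = (u ^ 2 + 5 * D ^ 2) ^ 2 := by rw [h1]; ring
    rw [this]; ring
  have nw : IsCoprime w (v ^ 4 + 25 * D ^ 4) := by
    refine isCoprime_add_mul_of (key w c2w c5w cwD) (t := w * (w ^ 2 - 10 * D ^ 2)) ?_
    have : v ^ 4 = (w ^ 2 - 5 * D ^ 2) ^ 2 := by rw [← h2]; ring
    rw [this]; ring
  exact (((n2.mul_left nD).mul_left nv).mul_left nu).mul_left nw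

end Crest.Agent.SF
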