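import Crest.Agent.SF.CurveIntA

/-!
# Chunk R323-CURVEINTC (you may use `sol_facts`)
-/

set_option autoImplicit false

namespace Crest.Agent.SF

theorem curveIntC_aux {p : ℤ} (hp : Prime p) {D3 u3 v3 D4 u4 v4 w3 : ℤ}
    (h3 : u3 ^ 2 + 5 * D3 ^ 2 = v3 ^ 2) (h3' : v3 ^ 2 + 5 * D3 ^ 2 = w3 ^ 2)
    (c3 : IsCoprime D3 v3)
    (h4 : u4 ^ 2 + 5 * D4 ^ 2 = v4 ^ 2) (c4 : IsCoprime D4 v4)
    (hv : p ∣ v3) (hD : p ∣ D3 * D4) (hu : p ∣ u3 * u4) : False := by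
  have hD3 : ¬ p ∣ D3 := fun h => hp.not_isUnit (c3.isUnit_of_dvd' h hv)
  have hp5 : ¬ (p ∣ 5) := by
    intro h5
    have hw : p ∣ w3 := by
      apply hp.dvd_of_dvd_pow (n := 2)
      rw [← h3']
      exact dvd_add (dvd_pow hv two_ne_zero) (Dvd.dvd.mul_right h5 _)
    -- p associated to 5
    have hassoc : Associated p 5 := by
      have : Prime (5 : ℤ) := by
        have := Nat.prime_iff_prime_int.mp (show Nat.Prime 5 by norm_num)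
        exact_mod_cast this
      exact (hp.dvd_prime_iff_associated this).mp h5
    have hp2 : p ^ 2 ∣ 5 * D3 ^ 2 := by
      have : 5 * D3 ^ 2 = w3 ^ 2 - v3 ^ 2 := by linarith
      rw [this]
      exact dvd_sub (pow_dvd_pow_of_dvd hw 2) (pow_dvd_pow_of_dvd hv 2)
    obtain ⟨u, hu'⟩ := hassoc
    have h25 : p ∣ D3 ^ 2 := by
      rw [← hu', pow_two] at hp2
      have h1 : p * p ∣ p * (u * D3 ^ 2) := by rw [← mul_assoc]; exact hp2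
      have h2 : p ∣ (u : ℤ) * D3 ^ 2 := (mul_dvd_mul_iff_left hp.ne_zero).mp h1
      exact (Units.dvd_mul_left).mp h2
    exact hD3 (hp.dvd_of_dvd_pow h25)
  have hu3 : ¬ p ∣ u3 := by
    intro h
    have : p ∣ 5 * D3 ^ 2 := by
      have : 5 * D3 ^ 2 = v3 ^ 2 - u3 ^ 2 := by linarith
      rw [this]
      exact dvd_sub (dvd_pow hv two_ne_zero) (dvd_pow h two_ne_zero)
    rcases hp.dvd_or_dvd this with h | h
    · exact hp5 h
    · exact hD3 (hp.dvd_of_dvd_pow h)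
  have hD4 : p ∣ D4 := (hp.dvd_or_dvd hD).resolve_left hD3
  have hu4 : p ∣ u4 := (hp.dvd_or_dvd hu).resolve_left hu3
  have hv4 : p ∣ v4 := by
    apply hp.dvd_of_dvd_pow (n := 2)
    rw [← h4]
    exact dvd_add (dvd_pow hu4 two_ne_zero) (Dvd.dvd.mul_left (dvd_pow hD4 two_ne_zero) _)
  exact hp.not_isUnit (c4.isUnit_of_dvd' hD4 hv4)

/-- Arithmetic core of (V2). If a prime `p` divides `v3`, then `p ∤ D3`, `p ∤ u3`; if it also divides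
both `D3 * D4` and `u3 * u4` then `p ∣ D4`, `p ∣ u4`, so `p ∣ v4² = u4² + 5 D4²`, contradiction with
`IsCoprime D4 v4`; same with 3, 4 exchanged. Hence `v3 v4` is coprime to
`gcd (D3 D4) (u3 u4)`; write `g = gcd (D3 D4) (u3 u4) = x D3 D4 + y u3 u4` (Bezout): `v3 v4` divides
`D3 D4 Z` and `u3 u4 Z`, so it divides `g Z`, so it divides `Z`. -/
theorem dvd_core {D3 u3 v3 D4 u4 v4 Z A B w3 w4 : ℤ}
    (h3 : u3 ^ 2 + 5 * D3 ^ 2 = v3 ^ 2) (h3' : v3 ^ 2 + 5 * D3 ^ 2 = w3 ^ 2)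
    (c3 : IsCoprime D3 v3)
    (h4 : u4 ^ 2 + 5 * D4 ^ 2 = v4 ^ 2) (h4' : v4 ^ 2 + 5 * D4 ^ 2 = w4 ^ 2)
    (c4 : IsCoprime D4 v4)
    (hS : D3 * D4 * Z = v3 * v4 * A) (hc : u3 * u4 * Z = v3 * v4 * B) : v3 * v4 ∣ Z := by
  have hcop : IsCoprime (v3 * v4) ((Int.gcd (D3 * D4) (u3 * u4) : ℕ) : ℤ) := by
    rw [Int.isCoprime_iff_gcd_eq_one]
    by_contra hne
    obtain ⟨q, hq, hqd⟩ := Nat.exists_prime_and_dvd hne
    have hqp : Prime (q : ℤ) := Nat.prime_iff_prime_int.mp hq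
    have hqz : (q : ℤ) ∣ ((Int.gcd (v3 * v4) ((Int.gcd (D3 * D4) (u3 * u4) : ℕ) : ℤ) : ℕ) : ℤ) :=
      Int.natCast_dvd_natCast.mpr hqd
    have h1 : (q : ℤ) ∣ v3 * v4 := hqz.trans (Int.gcd_dvd_left _ _)
    have h2 : (q : ℤ) ∣ ((Int.gcd (D3 * D4) (u3 * u4) : ℕ) : ℤ) := hqz.trans (Int.gcd_dvd_right _ _)
    have h2a : (q : ℤ) ∣ D3 * D4 := h2.trans (Int.gcd_dvd_left _ _)
    have h2b : (q : ℤ) ∣ u3 * u4 := h2.trans (Int.gcd_dvd_right _ _)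
    rcases hqp.dvd_or_dvd h1 with h | h
    · exact curveIntC_aux hqp h3 h3' c3 h4 c4 h h2a h2b
    · exact curveIntC_aux hqp h4 h4' c4 h3 c3 h (by rwa [mul_comm]) (by rwa [mul_comm])
  have hdvd : v3 * v4 ∣ ((Int.gcd (D3 * D4) (u3 * u4) : ℕ) : ℤ) * Z := by
    rw [Int.gcd_eq_gcd_ab]
    rw [add_mul]
    apply dvd_add
    · rw [mul_right_comm, hS, mul_assoc, mul_assoc]
      exact Dvd.dvd.mul_right (dvd_refl _) _ |>.trans (by rw [mul_assoc])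
    · rw [mul_right_comm, hc, mul_assoc, mul_assoc]
      exact Dvd.dvd.mul_right (dvd_refl _) _ |>.trans (by rw [mul_assoc])
  exact hcop.dvd_of_dvd_mul_left hdvd

end Crest.Agent.SF
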