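import Crest.Agent.SF.CurveRepDef

/-!
# Chunk R323-CURVEREPB
-/

set_option autoImplicit false

namespace Crest.Agent.SF

/-- Duplication: the formulas are `CPt.add_S` etc. with `p = q`; multiply by `v⁴`, and use
`u² = v² - 5D²`, `w² = v² + 5D²`; coprimality is `double_coprime`. -/
theorem Rep.double {p : CPt} {D u v w : ℤ} (h : Rep p D u v w) :
    Rep (p + p) (2 * D * v * u * w) (v ^ 4 - 10 * v ^ 2 * D ^ 2 - 25 * D ^ 4) (v ^ 4 + 25 * D ^ 4)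
      (v ^ 4 + 10 * v ^ 2 * D ^ 2 - 25 * D ^ 4) := by
  have e1 := h.eq1
  have e2 := h.eq2
  have hvpos := h.vpos
  have hvR : (0 : ℝ) < (v : ℝ) := by exact_mod_cast hvpos
  have hv : (v : ℝ) ≠ 0 := hvR.ne'
  have e1R : (u : ℝ) ^ 2 = (v : ℝ) ^ 2 - 5 * (D : ℝ) ^ 2 := by
    have : (u : ℝ) ^ 2 + 5 * (D : ℝ) ^ 2 = (v : ℝ) ^ 2 := by exact_mod_cast e1
    linarith
  have e2R : (w : ℝ) ^ 2 = (v : ℝ) ^ 2 + 5 * (D : ℝ) ^ 2 := by
    have : (v : ℝ) ^ 2 + 5 * (D : ℝ) ^ 2 = (w : ℝ) ^ 2 := by exact_mod_cast e2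
    linarith
  have hden : (v : ℝ) ^ 4 + 25 * (D : ℝ) ^ 4 ≠ 0 := by positivity
  have hden' : (1 : ℝ) + 25 * ((D : ℝ) / v) ^ 2 * ((D : ℝ) / v) ^ 2 ≠ 0 := by positivity
  refine ⟨by positivity, double_coprime e1 e2 h.cop, ?_, ?_, ?_⟩
  · rw [CPt.add_S, h.hS, h.hc, h.hd]
    push_cast
    rw [div_eq_div_iff hden' hden]
    field_simp
    ring
  · rw [CPt.add_c, h.hS, h.hc, h.hd]
    push_cast
    have k1 : (u : ℝ) / v * (u / v) - 5 * (D / v) * (D / v) * (w / v) * (w / v) =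
        ((u : ℝ) ^ 2 * v ^ 2 - 5 * D ^ 2 * w ^ 2) / v ^ 4 := by
      field_simp
    rw [k1, e1R, e2R, div_eq_div_iff hden' hden]
    field_simp
    ring
  · rw [CPt.add_d, h.hS, h.hc, h.hd]
    push_cast
    have k1 : (w : ℝ) / v * (w / v) + 5 * (D / v) * (D / v) * (u / v) * (u / v) =
        ((w : ℝ) ^ 2 * v ^ 2 + 5 * D ^ 2 * u ^ 2) / v ^ 4 := by
      field_simp
    rw [k1, e1R, e2R, div_eq_div_iff hden' hden]
    field_simp
    ring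

end Crest.Agent.SF
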