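import Crest.Agent.SF.CurveRepDef

/-!
# Chunk R323-CURVEREPC
-/

set_option autoImplicit false

namespace Crest.Agent.SF

theorem Rep.add_rel {p q : CPt} {D1 u1 v1 w1 D2 u2 v2 w2 D3 u3 v3 w3 : ℤ}
    (h1 : Rep p D1 u1 v1 w1) (h2 : Rep q D2 u2 v2 w2) (h3 : Rep (p + q) D3 u3 v3 w3) :
    D3 * (v1 ^ 2 * v2 ^ 2 + 25 * D1 ^ 2 * D2 ^ 2) = v3 * (D1 * v1 * u2 * w2 + D2 * v2 * u1 * w1) ∧
    u3 * (v1 ^ 2 * v2 ^ 2 + 25 * D1 ^ 2 * D2 ^ 2) =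
      v3 * (u1 * u2 * v1 * v2 - 5 * D1 * D2 * w1 * w2) := by
  have hv1 : (v1 : ℝ) ≠ 0 := by exact_mod_cast h1.vpos.ne'
  have hv2 : (v2 : ℝ) ≠ 0 := by exact_mod_cast h2.vpos.ne'
  have hv3 : (v3 : ℝ) ≠ 0 := by exact_mod_cast h3.vpos.ne'
  have hv1' : (0 : ℝ) < v1 := by exact_mod_cast h1.vpos
  have hv2' : (0 : ℝ) < v2 := by exact_mod_cast h2.vpos
  have hZ : ((v1 : ℝ) ^ 2 * v2 ^ 2 + 25 * D1 ^ 2 * D2 ^ 2) ≠ 0 := by positivity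
  have hden : (1 : ℝ) + 25 * ((D1 : ℝ) / v1) ^ 2 * ((D2 : ℝ) / v2) ^ 2 =
      ((v1 : ℝ) ^ 2 * v2 ^ 2 + 25 * D1 ^ 2 * D2 ^ 2) / (v1 ^ 2 * v2 ^ 2) := by
    field_simp
  constructor
  · have hS := CPt.add_S p q
    rw [h3.hS, h1.hS, h2.hS, h1.hc, h1.hd, h2.hc, h2.hd, hden] at hS
    have hN : ((D1 : ℝ) / v1 * (u2 / v2) * (w2 / v2) + D2 / v2 * (u1 / v1) * (w1 / v1)) =
        (D1 * v1 * u2 * w2 + D2 * v2 * u1 * w1) / (v1 ^ 2 * v2 ^ 2) := by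
      field_simp
    rw [hN, div_div_div_cancel_right₀ (by positivity), div_eq_div_iff hv3 hZ] at hS
    have : ((D3 * (v1 ^ 2 * v2 ^ 2 + 25 * D1 ^ 2 * D2 ^ 2) : ℤ) : ℝ) =
      ((v3 * (D1 * v1 * u2 * w2 + D2 * v2 * u1 * w1) : ℤ) : ℝ) := by
      push_cast; linarith
    exact_mod_cast this
  · have hS := CPt.add_c p q
    rw [h3.hc, h1.hS, h2.hS, h1.hc, h1.hd, h2.hc, h2.hd, hden] at hS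
    have hN : ((u1 : ℝ) / v1 * (u2 / v2) - 5 * (D1 / v1) * (D2 / v2) * (w1 / v1) * (w2 / v2)) =
        (u1 * u2 * v1 * v2 - 5 * D1 * D2 * w1 * w2) / (v1 ^ 2 * v2 ^ 2) := by
      field_simp
    rw [hN, div_div_div_cancel_right₀ (by positivity), div_eq_div_iff hv3 hZ] at hS
    have : ((u3 * (v1 ^ 2 * v2 ^ 2 + 25 * D1 ^ 2 * D2 ^ 2) : ℤ) : ℝ) =
      ((v3 * (u1 * u2 * v1 * v2 - 5 * D1 * D2 * w1 * w2) : ℤ) : ℝ) := by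
      push_cast; linarith
    exact_mod_cast this

/-- (V2) `v(p+q) v(p-q) ∣ Z = v1² v2² + 25 D1² D2²`. With `S± = (D1 v1 u2 w2 ± D2 v2 u1 w1)/Z` and
`c± = (u1 u2 v1 v2 ∓ 5 D1 D2 w1 w2)/Z`:
`S₊ S₋ = (D1² v2² - D2² v1²)/Z` and `c₊ c₋ = (v1²v2² - 5 D1² v2² - 5 D2² v1² - 25 D1² D2²)/Z`
(substitute `u_i² = v_i² - 5D_i²`, `w_i² = v_i² + 5D_i²`; `sub_eq_add_neg`, `CPt.neg_S`). Multiply out: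
`D3 D4 Z = v3 v4 (D1² v2² - D2² v1²)`, `u3 u4 Z = v3 v4 (...)`, and apply `dvd_core`. -/
theorem Rep.dvd_mul {p q : CPt} {D1 u1 v1 w1 D2 u2 v2 w2 D3 u3 v3 w3 D4 u4 v4 w4 : ℤ}
    (h1 : Rep p D1 u1 v1 w1) (h2 : Rep q D2 u2 v2 w2) (h3 : Rep (p + q) D3 u3 v3 w3)
    (h4 : Rep (p - q) D4 u4 v4 w4) : v3 * v4 ∣ v1 ^ 2 * v2 ^ 2 + 25 * D1 ^ 2 * D2 ^ 2 := by
  have h4' : Rep (p + -q) D4 u4 v4 w4 := by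
    rw [← sub_eq_add_neg]; exact h4
  obtain ⟨a1, a2⟩ := Rep.add_rel h1 h2 h3
  obtain ⟨b1, b2⟩ := Rep.add_rel h1 h2.neg h4'
  have e1 := h1.eq1
  have e2 := h1.eq2
  have f1 := h2.eq1
  have f2 := h2.eq2
  have hu1 : u1 ^ 2 = v1 ^ 2 - 5 * D1 ^ 2 := by linarith
  have hw1 : w1 ^ 2 = v1 ^ 2 + 5 * D1 ^ 2 := by linarith
  have hu2 : u2 ^ 2 = v2 ^ 2 - 5 * D2 ^ 2 := by linarith
  have hw2 : w2 ^ 2 = v2 ^ 2 + 5 * D2 ^ 2 := by linarith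
  have p1 := h1.vpos
  have p2 := h2.vpos
  have hZpos : (0 : ℤ) < v1 ^ 2 * v2 ^ 2 + 25 * D1 ^ 2 * D2 ^ 2 := by positivity
  rw [show v1 ^ 2 * v2 ^ 2 + 25 * D1 ^ 2 * (-D2) ^ 2 = v1 ^ 2 * v2 ^ 2 + 25 * D1 ^ 2 * D2 ^ 2 by ring]
    at b1 b2
  set Z : ℤ := v1 ^ 2 * v2 ^ 2 + 25 * D1 ^ 2 * D2 ^ 2 with hZ
  have k1 : D3 * D4 * Z = v3 * v4 * (D1 ^ 2 * v2 ^ 2 - D2 ^ 2 * v1 ^ 2) := by
    have hmul : (D3 * D4 * Z) * Z = (v3 * v4 * (D1 ^ 2 * v2 ^ 2 - D2 ^ 2 * v1 ^ 2)) * Z := by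
      calc (D3 * D4 * Z) * Z = (D3 * Z) * (D4 * Z) := by ring
        _ = v3 * v4 * (D1 ^ 2 * v1 ^ 2 * u2 ^ 2 * w2 ^ 2 - D2 ^ 2 * v2 ^ 2 * u1 ^ 2 * w1 ^ 2) := by
            rw [a1, b1]; ring
        _ = _ := by rw [hu1, hu2, hw1, hw2, hZ]; ring
    exact mul_right_cancel₀ hZpos.ne' hmul
  have k2 : u3 * u4 * Z =
      v3 * v4 * (v1 ^ 2 * v2 ^ 2 - 5 * D1 ^ 2 * v2 ^ 2 - 5 * D2 ^ 2 * v1 ^ 2 - 25 * D1 ^ 2 * D2 ^ 2) := by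
    have hmul : (u3 * u4 * Z) * Z = (v3 * v4 * (v1 ^ 2 * v2 ^ 2 - 5 * D1 ^ 2 * v2 ^ 2 -
        5 * D2 ^ 2 * v1 ^ 2 - 25 * D1 ^ 2 * D2 ^ 2)) * Z := by
      calc (u3 * u4 * Z) * Z = (u3 * Z) * (u4 * Z) := by ring
        _ = v3 * v4 * (u1 ^ 2 * u2 ^ 2 * v1 ^ 2 * v2 ^ 2 - 25 * D1 ^ 2 * D2 ^ 2 * w1 ^ 2 * w2 ^ 2) := by
            rw [a2, b2]; ring
        _ = _ := by rw [hu1, hu2, hw1, hw2, hZ]; ring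
    exact mul_right_cancel₀ hZpos.ne' hmul
  exact dvd_core h3.eq1 h3.eq2 h3.cop h4'.eq1 h4'.eq2 h4'.cop k1 k2

end Crest.Agent.SF
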