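import Crest.Agent.SF.CurveRepDef

/-!
# Chunk R323-CURVEREPA
-/

set_option autoImplicit false

namespace Crest.Agent.SF

theorem CurveRepA_natAbs {a b : ℤ} (h : a ^ 2 = b ^ 2) : a.natAbs = b.natAbs :=
  Int.natAbs_eq_iff_sq_eq.2 h

/-- lowest terms: the representation is determined by the `S` coordinate up to sign. If
`|p.S| = |q.S|` then `D1² v2² = D2² v1²`, so by coprimality `v1 = v2`, `|D1| = |D2|`; then
`u1² = v1² - 5 D1² = u2²`, `w1² = w2²`. -/
theorem Rep.natAbs_eq {p q : CPt} {D u v w D' u' v' w' : ℤ} (h : Rep p D u v w)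
    (h' : Rep q D' u' v' w') (hpq : p.S ^ 2 = q.S ^ 2) :
    D.natAbs = D'.natAbs ∧ u.natAbs = u'.natAbs ∧ v = v' ∧ w.natAbs = w'.natAbs := by
  have hv : (v : ℝ) ≠ 0 := by exact_mod_cast h.vpos.ne'
  have hv' : (v' : ℝ) ≠ 0 := by exact_mod_cast h'.vpos.ne'
  have e1 : ((D : ℝ) * v') ^ 2 = ((D' : ℝ) * v) ^ 2 := by
    rw [h.hS, h'.hS, div_pow, div_pow, div_eq_div_iff (pow_ne_zero 2 hv) (pow_ne_zero 2 hv')] at hpq
    rw [mul_pow, mul_pow, hpq]
  have e2 : (D * v') ^ 2 = (D' * v) ^ 2 := by exact_mod_cast e1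
  have e3 : D.natAbs * v'.natAbs = D'.natAbs * v.natAbs := by
    rw [← Int.natAbs_mul, ← Int.natAbs_mul]
    exact CurveRepA_natAbs e2
  have c1 : Nat.Coprime D.natAbs v.natAbs := Int.isCoprime_iff_nat_coprime.1 h.cop
  have c2 : Nat.Coprime D'.natAbs v'.natAbs := Int.isCoprime_iff_nat_coprime.1 h'.cop
  have d1 : v.natAbs ∣ v'.natAbs :=
    c1.symm.dvd_of_dvd_mul_left (e3 ▸ Dvd.intro_left _ rfl)
  have d2 : v'.natAbs ∣ v.natAbs :=
    c2.symm.dvd_of_dvd_mul_left (e3 ▸ Dvd.intro_left _ rfl)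
  have e4 : v.natAbs = v'.natAbs := Nat.dvd_antisymm d1 d2
  have e5 : v = v' := by
    have := h.vpos
    have := h'.vpos
    omega
  have hvp : 0 < v'.natAbs := Int.natAbs_pos.2 h'.vpos.ne'
  have e6 : D.natAbs = D'.natAbs := by
    rw [e4] at e3
    exact Nat.eq_of_mul_eq_mul_right hvp e3
  have e7 : D ^ 2 = D' ^ 2 := Int.natAbs_eq_iff_sq_eq.1 e6
  refine ⟨e6, CurveRepA_natAbs ?_, e5, CurveRepA_natAbs ?_⟩
  · have a1 := h.eq1
    have a2 := h'.eq1
    rw [← e5] at a2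
    linarith
  · have a1 := h.eq2
    have a2 := h'.eq2
    rw [← e5] at a2
    linarith

/-- a rational number whose square is an integer is an integer -/
theorem CurveRepA_int (q : ℚ) (n : ℤ) (h : q ^ 2 = n) : ∃ m : ℤ, q = m := by
  have h1 : (q ^ 2).den = 1 := by rw [h]; exact Rat.den_intCast n
  rw [Rat.den_pow] at h1
  have h2 : q.den = 1 := by
    have := Nat.pow_eq_one.1 h1
    omega
  exact ⟨q.num, (Rat.coe_int_num_of_den_eq_one h2).symm⟩

/-- A point all of whose coordinates are rational has a representation: `p.S = x`, take `D = x.num`,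
`v = x.den`. Then `(p.c * v)² = v² - 5 D²` is an integer and `p.c * v` is rational, so an integer `u`
(e.g. `IsIntegrallyClosed`, or `Rat`: `q^2 = n` integer implies `q.den = 1`); same for `w`. -/
theorem exists_rep {p : CPt} {x y z : ℚ} (hx : p.S = x) (hy : p.c = y) (hz : p.d = z) :
    ∃ D u v w : ℤ, Rep p D u v w := by
  have hdpos : 0 < x.den := x.pos
  have hd0 : (x.den : ℚ) ≠ 0 := by exact_mod_cast hdpos.ne'
  have hd0' : (x.den : ℝ) ≠ 0 := by exact_mod_cast hdpos.ne'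
  have hxe : x = (x.num : ℚ) / (x.den : ℚ) := (Rat.num_div_den x).symm
  have q1 : y ^ 2 + 5 * x ^ 2 = 1 := by
    have := p.h1
    rw [hx, hy] at this
    exact_mod_cast this
  have q2 : z ^ 2 - 5 * x ^ 2 = 1 := by
    have := p.h2
    rw [hx, hz] at this
    exact_mod_cast this
  have hxd : x * x.den = x.num := Rat.mul_den_eq_num x
  obtain ⟨u, hu⟩ := CurveRepA_int (y * x.den) ((x.den : ℤ) ^ 2 - 5 * x.num ^ 2) (by
    push_cast
    have : y ^ 2 = 1 - 5 * x ^ 2 := by linarith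
    rw [mul_pow, this, ← hxd]
    ring)
  obtain ⟨w, hw⟩ := CurveRepA_int (z * x.den) ((x.den : ℤ) ^ 2 + 5 * x.num ^ 2) (by
    push_cast
    have : z ^ 2 = 1 + 5 * x ^ 2 := by linarith
    rw [mul_pow, this, ← hxd]
    ring)
  refine ⟨x.num, u, x.den, w, ⟨by exact_mod_cast hdpos, ?_, ?_, ?_, ?_⟩⟩
  · rw [Int.isCoprime_iff_nat_coprime]
    simpa using x.reduced
  · rw [hx]
    conv_lhs => rw [hxe]
    push_cast
    rfl
  · rw [hy, eq_div_iff (by exact_mod_cast hdpos.ne')]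
    exact_mod_cast hu
  · rw [hz, eq_div_iff (by exact_mod_cast hdpos.ne')]
    exact_mod_cast hw

/-- Coordinates of `p + q` are rational; use `exists_rep`. -/
theorem Rep.exists_add {p q : CPt} {D u v w D' u' v' w' : ℤ} (h : Rep p D u v w)
    (h' : Rep q D' u' v' w') : ∃ D'' u'' v'' w'' : ℤ, Rep (p + q) D'' u'' v'' w'' := by
  refine exists_rep
    (x := ((D / v : ℚ) * (u' / v') * (w' / v') + (D' / v') * (u / v) * (w / v)) /
      (1 + 25 * (D / v) ^ 2 * (D' / v') ^ 2))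
    (y := ((u / v : ℚ) * (u' / v') - 5 * (D / v) * (D' / v') * (w / v) * (w' / v')) /
      (1 + 25 * (D / v) ^ 2 * (D' / v') ^ 2))
    (z := ((w / v : ℚ) * (w' / v') + 5 * (D / v) * (D' / v') * (u / v) * (u' / v')) /
      (1 + 25 * (D / v) ^ 2 * (D' / v') ^ 2)) ?_ ?_ ?_
  · rw [CPt.add_S, h.hS, h.hc, h.hd, h'.hS, h'.hc, h'.hd]
    push_cast
    rfl
  · rw [CPt.add_c, h.hS, h.hc, h.hd, h'.hS, h'.hc, h'.hd]
    push_cast
    rfl
  · rw [CPt.add_d, h.hS, h.hc, h.hd, h'.hS, h'.hc, h'.hd]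
    push_cast
    rfl

end Crest.Agent.SF
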