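import Crest.Agent.SF.Curve
import Crest.Agent.SF.CurveInt

/-!
# Row 323: integral representations of the rational points of the curve
-/

set_option autoImplicit false

namespace Crest.Agent.SF

/-- `p = (D/v, u/v, w/v)` in lowest terms, `v > 0` -/
structure Rep (p : CPt) (D u v w : ℤ) : Prop where
  vpos : 0 < v
  cop : IsCoprime D v
  hS : p.S = D / v
  hc : p.c = u / v
  hd : p.d = w / v

theorem Rep.eq1 {p : CPt} {D u v w : ℤ} (h : Rep p D u v w) : u ^ 2 + 5 * D ^ 2 = v ^ 2 := by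
  have h1 := p.h1
  have hv : (v : ℝ) ≠ 0 := by exact_mod_cast h.vpos.ne'
  rw [h.hc, h.hS] at h1
  field_simp at h1
  exact_mod_cast h1

theorem Rep.eq2 {p : CPt} {D u v w : ℤ} (h : Rep p D u v w) : v ^ 2 + 5 * D ^ 2 = w ^ 2 := by
  have h1 := p.h2
  have hv : (v : ℝ) ≠ 0 := by exact_mod_cast h.vpos.ne'
  rw [h.hd, h.hS] at h1
  field_simp at h1
  have h2 : (w : ℝ) ^ 2 - 5 * D ^ 2 = v ^ 2 := by linarith
  have h3 : w ^ 2 - 5 * D ^ 2 = v ^ 2 := by exact_mod_cast h2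
  linarith

theorem Rep.neg {p : CPt} {D u v w : ℤ} (h : Rep p D u v w) : Rep (-p) (-D) u v w :=
  ⟨h.vpos, h.cop.neg_left, by rw [CPt.neg_S, h.hS]; push_cast; ring, h.hc, h.hd⟩

end Crest.Agent.SF
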