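import Mathlib

/-!
# Row 323: single-fold Diophantine relations — definitions

`SFD R`: the relation `R` on `ℕ^α` is single-fold Diophantine.
`SFF g`: the (total) function `g : ℕ^α → ℕ` has a single-fold Diophantine graph.
Contexts are arbitrary finite or infinite types `α : Type`; variables are `fun a => a i`.
-/

set_option autoImplicit false

namespace Crest.Agent.SF

/-- integer polynomial functions on `ℕ^α` -/
def IsPoly {α : Type} (f : (α → ℕ) → ℤ) : Prop :=
  ∃ p : MvPolynomial α ℤ, ∀ a : α → ℕ, f a = MvPolynomial.eval (fun i => (a i : ℤ)) p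

/-- single-fold Diophantine relations: there is a finite set `β` of unknowns and an integer
polynomial `F(a, w)` such that `R a` iff `F(a, ·)` has a zero in `ℕ^β`, and there is always at most
one zero. -/
def SFD {α : Type} (R : (α → ℕ) → Prop) : Prop :=
  ∃ (β : Type) (_ : Fintype β) (F : (α ⊕ β → ℕ) → ℤ), IsPoly F ∧
    ∀ a : α → ℕ, (R a ↔ ∃ w : β → ℕ, F (Sum.elim a w) = 0) ∧
      ∀ w w' : β → ℕ, F (Sum.elim a w) = 0 → F (Sum.elim a w') = 0 → w = w'

/-- single-fold functions: the graph `{b : Option α → ℕ | b none = g (b ∘ some)}` is `SFD` -/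
def SFF {α : Type} (g : (α → ℕ) → ℕ) : Prop :=
  SFD (fun b : Option α → ℕ => b none = g (fun i => b (some i)))

namespace IsPoly

variable {α γ : Type} {f g : (α → ℕ) → ℤ}

theorem const (c : ℤ) : IsPoly (fun _ : α → ℕ => c) := ⟨MvPolynomial.C c, fun a => by simp⟩

theorem var (i : α) : IsPoly (fun a : α → ℕ => (a i : ℤ)) := ⟨MvPolynomial.X i, fun a => by simp⟩

theorem add (hf : IsPoly f) (hg : IsPoly g) : IsPoly (fun a => f a + g a) := by
  obtain ⟨p, hp⟩ := hf
  obtain ⟨q, hq⟩ := hg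
  exact ⟨p + q, fun a => by simp [hp, hq]⟩

theorem sub (hf : IsPoly f) (hg : IsPoly g) : IsPoly (fun a => f a - g a) := by
  obtain ⟨p, hp⟩ := hf
  obtain ⟨q, hq⟩ := hg
  exact ⟨p - q, fun a => by simp [hp, hq]⟩

theorem neg (hf : IsPoly f) : IsPoly (fun a => - f a) := by
  obtain ⟨p, hp⟩ := hf
  exact ⟨-p, fun a => by simp [hp]⟩

theorem mul (hf : IsPoly f) (hg : IsPoly g) : IsPoly (fun a => f a * g a) := by
  obtain ⟨p, hp⟩ := hf
  obtain ⟨q, hq⟩ := hg
  exact ⟨p * q, fun a => by simp [hp, hq]⟩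

theorem pow (hf : IsPoly f) (n : ℕ) : IsPoly (fun a => f a ^ n) := by
  obtain ⟨p, hp⟩ := hf
  exact ⟨p ^ n, fun a => by simp [hp]⟩

theorem sum {ι : Type} (s : Finset ι) (F : ι → (α → ℕ) → ℤ) (h : ∀ i ∈ s, IsPoly (F i)) :
    IsPoly (fun a => ∑ i ∈ s, F i a) := by
  classical
  induction s using Finset.induction_on with
  | empty => simpa using const (α := α) 0
  | insert i s hi ih =>
    simp_rw [Finset.sum_insert hi]
    exact (h i (Finset.mem_insert_self i s)).add (ih fun j hj => h j (Finset.mem_insert_of_mem hj))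

theorem reindex {F : (γ → ℕ) → ℤ} (hF : IsPoly F) (r : γ → α) :
    IsPoly (fun a : α → ℕ => F (fun i => a (r i))) := by
  obtain ⟨p, hp⟩ := hF
  refine ⟨MvPolynomial.rename r p, fun a => ?_⟩
  simp only [hp, MvPolynomial.eval_rename]
  rfl

end IsPoly

end Crest.Agent.SF
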