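import Crest.Agent.SF.DescB0

/-!
# Chunk R323-DESCB1: the second class of the descent
-/

set_option autoImplicit false

namespace Crest.Agent.SF

/-- Let `R = (s/(5r), t/(√5 r), q/(√5 r))`, `R1 = (2/5, 1/√5, 3/√5)`. They are points of the curve
(`t² + s² = 5r²`, `5r² + s² = q²`). `(2•R).S = 2 s r t q/(25r⁴ + s⁴)`. `2•R1 = (12/41, -31/41, 49/41)`
so `(2•R1).S² = P1.S²` and `2•R1 = ±P1 + τ₀` by `eq_of_S_sq`. `Q := R - R1` has coordinates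
`(3sr - 2tq, 5tr + 6sq, 15qr - 2st)/(25r² + 4s²)` (denominator `Δ = 1 + 25 (s/5r)² (2/5)²
= (25r²+4s²)/(25r²)`). Conclusion: `2•R = 2•Q + 2•R1`. -/
theorem class_two {s t r q : ℕ} (hs : 0 < s) (hr : 0 < r) (h1 : t ^ 2 + s ^ 2 = 5 * r ^ 2)
    (h2 : 5 * r ^ 2 + s ^ 2 = q ^ 2) :
    ∃ R Q τ : CPt, 2 • τ = 0 ∧ (2 • R).S = 2 * s * r * t * q / (25 * r ^ 4 + s ^ 4) ∧
      (2 • R = 2 • Q + P1 + τ ∨ 2 • R = 2 • Q - P1 + τ) ∧
      Q.S = (3 * s * r - 2 * t * q) / (25 * r ^ 2 + 4 * s ^ 2) ∧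
      Q.c = (5 * t * r + 6 * s * q) / (25 * r ^ 2 + 4 * s ^ 2) ∧
      Q.d = (15 * q * r - 2 * s * t) / (25 * r ^ 2 + 4 * s ^ 2) := by
  have hr' : (0 : ℝ) < r := by exact_mod_cast hr
  have hr0 : (r : ℝ) ≠ 0 := hr'.ne'
  have h1' : (t : ℝ) ^ 2 + (s : ℝ) ^ 2 = 5 * (r : ℝ) ^ 2 := by exact_mod_cast h1
  have h2' : 5 * (r : ℝ) ^ 2 + (s : ℝ) ^ 2 = (q : ℝ) ^ 2 := by exact_mod_cast h2
  have h5 : (√5 : ℝ) ^ 2 = 5 := Real.sq_sqrt (by norm_num)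
  have h50 : (√5 : ℝ) ≠ 0 := by
    intro h; rw [h] at h5; norm_num at h5
  have hinv : (1 / √5 : ℝ) ^ 2 = 1 / 5 := by rw [div_pow, h5]; norm_num
  -- the two points
  have hR1 : ((t : ℝ) * (1 / √5) / r) ^ 2 + 5 * ((s : ℝ) / (5 * r)) ^ 2 = 1 := by
    rw [div_pow, mul_pow, hinv]
    field_simp
    linarith
  have hR2 : ((q : ℝ) * (1 / √5) / r) ^ 2 - 5 * ((s : ℝ) / (5 * r)) ^ 2 = 1 := by
    rw [div_pow, mul_pow, hinv]
    field_simp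
    linarith
  have hA1 : (1 / √5 : ℝ) ^ 2 + 5 * (2 / 5) ^ 2 = 1 := by rw [hinv]; norm_num
  have hA2 : (3 * (1 / √5) : ℝ) ^ 2 - 5 * (2 / 5) ^ 2 = 1 := by
    rw [mul_pow, hinv]; norm_num
  set a : ℝ := 1 / √5 with ha
  obtain ⟨R, hRS, hRc, hRd⟩ : ∃ R : CPt, R.S = (s : ℝ) / (5 * r) ∧ R.c = (t : ℝ) * a / r ∧
      R.d = (q : ℝ) * a / r := ⟨⟨_, _, _, hR1, hR2⟩, rfl, rfl, rfl⟩
  obtain ⟨A, hAS, hAc, hAd⟩ : ∃ A : CPt, A.S = 2 / 5 ∧ A.c = a ∧ A.d = 3 * a :=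
    ⟨⟨_, _, _, hA1, hA2⟩, rfl, rfl, rfl⟩
  have hpow : (0 : ℝ) < 25 * r ^ 2 + 4 * s ^ 2 := by positivity
  have hpow4 : (0 : ℝ) < 25 * r ^ 4 + s ^ 4 := by positivity
  have h2A : (2 • A).S = 12 / 41 := by
    rw [two_nsmul, CPt.add_S, hAS, hAc, hAd]
    have : 2 / 5 * a * (3 * a) + 2 / 5 * a * (3 * a) = 12 / 5 * a ^ 2 := by ring
    rw [this, hinv]; norm_num
  obtain ⟨τ, hτ, hτ'⟩ := eq_of_S_sq (p := 2 • A) (q := P1) (by rw [h2A]; rfl)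
  refine ⟨R, R - A, τ, hτ, ?_, ?_, ?_, ?_, ?_⟩
  · rw [two_nsmul, CPt.add_S, hRS, hRc, hRd]
    have e : (s : ℝ) / (5 * r) * (t * a / r) * (q * a / r) + s / (5 * r) * (t * a / r) * (q * a / r)
        = 2 * s * t * q * a ^ 2 / (5 * r ^ 3) := by
      field_simp
      ring
    rw [e, hinv]
    rw [div_eq_div_iff (by positivity) hpow4.ne']
    field_simp
    ring
  · have e : (2 : ℕ) • R = 2 • (R - A) + 2 • A := by
      rw [← nsmul_add, sub_add_cancel]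
    rcases hτ' with h | h
    · left; rw [e, h]; abel
    · right; rw [e, h]; abel
  · rw [sub_eq_add_neg, CPt.add_S, CPt.neg_S, CPt.neg_c, CPt.neg_d, hRS, hRc, hRd, hAS, hAc, hAd]
    have e : (s : ℝ) / (5 * r) * a * (3 * a) + -(2 / 5) * (t * a / r) * (q * a / r)
        = (3 * s / (5 * r) - 2 * t * q / (5 * r ^ 2)) * a ^ 2 := by
      field_simp
      ring
    rw [e, hinv]
    rw [div_eq_div_iff (by positivity) hpow.ne']
    field_simp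
    ring
  · rw [sub_eq_add_neg, CPt.add_c, CPt.neg_S, CPt.neg_c, CPt.neg_d, hRS, hRc, hRd, hAS, hAc, hAd]
    have e : (t : ℝ) * a / r * a - 5 * (s / (5 * r)) * -(2 / 5) * (q * a / r) * (3 * a)
        = (t / r + 6 * s * q / (5 * r ^ 2)) * a ^ 2 := by
      field_simp
      ring
    rw [e, hinv]
    rw [div_eq_div_iff (by positivity) hpow.ne']
    field_simp
    ring
  · rw [sub_eq_add_neg, CPt.add_d, CPt.neg_S, CPt.neg_c, CPt.neg_d, hRS, hRc, hRd, hAS, hAc, hAd]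
    have e : (q : ℝ) * a / r * (3 * a) + 5 * (s / (5 * r)) * -(2 / 5) * (t * a / r) * a
        = (3 * q / r - 2 * s * t / (5 * r ^ 2)) * a ^ 2 := by
      field_simp
      ring
    rw [e, hinv]
    rw [div_eq_div_iff (by positivity) hpow.ne']
    field_simp
    ring

end Crest.Agent.SF
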