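import Crest.Agent.SF.CurveSeq

/-!
# Chunk R323-DESCB0: torsion
-/

set_option autoImplicit false

namespace Crest.Agent.SF

theorem c_sq (p : CPt) : p.c ^ 2 = 1 - 5 * p.S ^ 2 := by have := p.h1; linarith

theorem d_sq (p : CPt) : p.d ^ 2 = 1 + 5 * p.S ^ 2 := by have := p.h2; linarith

/-- `2•τ = 0` implies `τ.S = 0`: `(2τ).S = 2 S c d/Δ = 0` and `(2τ).c = (c² - 5S²d²)/Δ = 1 > 0`, so
`c ≠ 0`; `d² = 1 + 5S² > 0`. So `S = 0`. -/
theorem tors_S {τ : CPt} (h : 2 • τ = 0) : τ.S = 0 := by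
  rw [two_nsmul] at h
  have h1 : (τ + τ).S = 0 := by rw [h]; rfl
  have h2 : (τ + τ).c = 1 := by rw [h]; rfl
  have hd := CPt.den_ne τ.S τ.S
  rw [CPt.add_S, div_eq_zero_iff] at h1
  rw [CPt.add_c, div_eq_one_iff_eq hd] at h2
  have h3 := h1.resolve_right hd
  have hc := c_sq τ
  have hdd := d_sq τ
  by_contra hS
  have h4 : τ.S * (τ.c * τ.d) = 0 := by linarith
  have h5 : τ.c * τ.d = 0 := (mul_eq_zero.1 h4).resolve_left hS
  rcases mul_eq_zero.1 h5 with h6 | h6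
  · rw [h6] at h2
    have : 0 < 1 + 25 * τ.S ^ 2 * τ.S ^ 2 := CPt.den_pos _ _
    nlinarith [mul_nonneg (sq_nonneg τ.S) (sq_nonneg τ.d)]
  · rw [h6] at hdd
    nlinarith [sq_nonneg τ.S]

/-- If `τ.S = 0` then `τ.c² = 1`, `τ.d² = 1`, `2•τ = 0`. -/
theorem tors_of_S {τ : CPt} (h : τ.S = 0) : 2 • τ = 0 := by
  rw [two_nsmul]
  have hc := c_sq τ
  have hd := d_sq τ
  rw [h] at hc hd
  ext
  · rw [CPt.add_S, h]; simp
  · rw [CPt.add_c, h]; simp; nlinarith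
  · rw [CPt.add_d, h]; simp; nlinarith

theorem add_tors {p τ : CPt} (h : τ.S = 0) :
    (p + τ).S = p.S * τ.c * τ.d ∧ (p + τ).c = p.c * τ.c ∧ (p + τ).d = p.d * τ.d := by
  refine ⟨?_, ?_, ?_⟩
  · rw [CPt.add_S, h]; simp
  · rw [CPt.add_c, h]; simp
  · rw [CPt.add_d, h]; simp

/-- `(p + τ).S = p.S * τ.c * τ.d`, with `τ.c² = τ.d² = 1`. -/
theorem add_tors_S {p τ : CPt} (h : 2 • τ = 0) : (p + τ).S ^ 2 = p.S ^ 2 := by
  have hS := tors_S h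
  have hc := c_sq τ
  have hd := d_sq τ
  rw [hS] at hc hd
  rw [(add_tors hS).1, mul_pow, mul_pow, hc, hd]
  ring

/-- With `p.S = σ q.S`, `p.c = ε q.c`, `p.d = δ q.d`, signs `σ, ε, δ = ±1` (from `c² = 1 - 5S²`,
`d² = 1 + 5S²`) let `τ = (0, ε, δ)`. If `σ = ε δ` then `p = q + τ`, else `p = -q + τ`. -/
theorem eq_of_S_sq {p q : CPt} (h : p.S ^ 2 = q.S ^ 2) :
    ∃ τ : CPt, 2 • τ = 0 ∧ (p = q + τ ∨ p = -q + τ) := by
  have hc : p.c ^ 2 = q.c ^ 2 := by rw [c_sq, c_sq, h]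
  have hd : p.d ^ 2 = q.d ^ 2 := by rw [d_sq, d_sq, h]
  obtain ⟨e, he, hce⟩ : ∃ e : ℝ, e ^ 2 = 1 ∧ p.c = q.c * e := by
    rcases sq_eq_sq_iff_eq_or_eq_neg.1 hc with h1 | h1
    · exact ⟨1, by norm_num, by rw [h1]; ring⟩
    · exact ⟨-1, by norm_num, by rw [h1]; ring⟩
  obtain ⟨f, hf, hdf⟩ : ∃ e : ℝ, e ^ 2 = 1 ∧ p.d = q.d * e := by
    rcases sq_eq_sq_iff_eq_or_eq_neg.1 hd with h1 | h1
    · exact ⟨1, by norm_num, by rw [h1]; ring⟩
    · exact ⟨-1, by norm_num, by rw [h1]; ring⟩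
  let τ : CPt := ⟨0, e, f, by rw [he]; norm_num, by rw [hf]; norm_num⟩
  have hτ : τ.S = 0 := rfl
  have hτc : τ.c = e := rfl
  have hτd : τ.d = f := rfl
  refine ⟨τ, tors_of_S hτ, ?_⟩
  have hef : (e * f) ^ 2 = 1 := by rw [mul_pow, he, hf]; norm_num
  have hef' : e * f = 1 ∨ e * f = -1 := by
    rcases sq_eq_sq_iff_eq_or_eq_neg.1 (hef.trans (one_pow 2).symm) with h1 | h1
    · exact Or.inl h1
    · exact Or.inr h1
  have hS := sq_eq_sq_iff_eq_or_eq_neg.1 h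
  obtain ⟨a1, a2, a3⟩ := add_tors (p := q) hτ
  obtain ⟨b1, b2, b3⟩ := add_tors (p := -q) hτ
  rw [hτc, hτd] at a1 b1
  rw [hτc] at a2 b2
  rw [hτd] at a3 b3
  rw [mul_assoc] at a1 b1
  rcases hS with hS | hS <;> rcases hef' with h1 | h1
  · left; ext
    · rw [a1, h1, hS]; ring
    · rw [a2, hce]
    · rw [a3, hdf]
  · right; ext
    · rw [b1, h1, hS, CPt.neg_S]; ring
    · rw [b2, hce, CPt.neg_c]
    · rw [b3, hdf, CPt.neg_d]
  · right; ext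
    · rw [b1, h1, hS, CPt.neg_S]; ring
    · rw [b2, hce, CPt.neg_c]
    · rw [b3, hdf, CPt.neg_d]
  · left; ext
    · rw [a1, h1, hS]; ring
    · rw [a2, hce]
    · rw [a3, hdf]

/-- A point is "good" if it is `n • P1 + τ`. If `p.S² = (2•q).S²` and `q` is good then `p` is good:
`p = ±2q + τ'`, `2q = 2n•P1`. -/
theorem good_double {p q : CPt} (h : p.S ^ 2 = (2 • q).S ^ 2)
    (hq : ∃ (n : ℤ) (τ : CPt), 2 • τ = 0 ∧ q = n • P1 + τ) :
    ∃ (n : ℤ) (τ : CPt), 2 • τ = 0 ∧ p = n • P1 + τ := by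
  obtain ⟨n, τ, hτ, rfl⟩ := hq
  obtain ⟨τ', hτ', h'⟩ := eq_of_S_sq h
  have e : (2 : ℕ) • (n • P1 + τ) = (2 * n) • P1 := by
    rw [nsmul_add, hτ, add_zero, mul_smul, ← natCast_zsmul]
    rfl
  rw [e] at h'
  rcases h' with h' | h'
  · exact ⟨2 * n, τ', hτ', h'⟩
  · exact ⟨-(2 * n), τ', hτ', by rw [h', neg_smul]⟩

/-- If the `S` coordinate of a rational point is `a/b` with integers `a`, `b > 0` then the `v` of its
representation divides `b` (lowest terms), so `v ≤ b`. -/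
theorem Rep.v_le {p : CPt} {D u v w a b : ℤ} (h : Rep p D u v w) (hb : 0 < b)
    (hS : p.S = a / b) : v ≤ b := by
  have hv : (v : ℝ) ≠ 0 := by exact_mod_cast h.vpos.ne'
  have hb' : (b : ℝ) ≠ 0 := by exact_mod_cast hb.ne'
  have h1 := h.hS
  rw [hS, div_eq_div_iff hb' hv] at h1
  have h2 : a * v = D * b := by exact_mod_cast h1
  have h3 : v ∣ D * b := ⟨a, by rw [← h2]; ring⟩
  have h4 : v ∣ b := h.cop.symm.dvd_of_dvd_mul_left h3
  exact Int.le_of_dvd hb h4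

end Crest.Agent.SF
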