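import Crest.Agent.SF.DescB
import Crest.Agent.SF.CurveSeq

/-!
# Chunk R323-DESCC0: all solutions are multiples of `P1`
-/

set_option autoImplicit false

namespace Crest.Agent.SF

/-- `n • P1 + torsion` -/
def DescGood (p : CPt) : Prop := ∃ (n : ℤ) (τ : CPt), 2 • τ = 0 ∧ p = n • P1 + τ

theorem DescGood.add_tors {p τ : CPt} (h : DescGood p) (hτ : 2 • τ = 0) : DescGood (p + τ) := by
  obtain ⟨n, σ, hσ, rfl⟩ := h
  exact ⟨n, σ + τ, by rw [smul_add, hσ, hτ, add_zero], by rw [add_assoc]⟩

theorem DescGood.neg {p : CPt} (h : DescGood p) : DescGood (-p) := by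
  obtain ⟨n, σ, hσ, rfl⟩ := h
  refine ⟨-n, -σ, ?_, ?_⟩
  · rw [smul_neg, hσ, neg_zero]
  · rw [neg_add, neg_smul]

theorem DescGood.of_S_sq {p q : CPt} (h : p.S ^ 2 = q.S ^ 2) (hq : DescGood q) : DescGood p := by
  obtain ⟨τ, hτ, h1 | h1⟩ := eq_of_S_sq h
  · rw [h1]; exact hq.add_tors hτ
  · rw [h1]; exact hq.neg.add_tors hτ

theorem descC0_small {s t q : ℕ} (hs : 0 < s) (f1 : t ^ 2 + s ^ 2 = 5 * 1 ^ 2)
    (f2 : 5 * 1 ^ 2 + s ^ 2 = q ^ 2) : s = 2 ∧ t = 1 ∧ q = 3 := by
  have hs3 : s ≤ 2 := by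
    by_contra hcon
    have : 3 ≤ s := by omega
    nlinarith
  have ht3 : t ≤ 2 := by
    by_contra hcon
    have : 3 ≤ t := by omega
    nlinarith
  have hq3 : q ≤ 3 := by
    by_contra hcon
    have : 4 ≤ q := by omega
    nlinarith
  interval_cases s <;> interval_cases t <;>
    first
    | (norm_num at f1; done)
    | (interval_cases q <;>
        first
        | (norm_num at f2; done)
        | exact ⟨rfl, rfl, rfl⟩)

/-- Strong induction on `v`. If `D = 0`: `p.S = 0`, `2•p = 0` (`tors_of_S`), `n = 0`.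
If `D ≠ 0` apply `descent_nat` to `|D|, |u|, v, |w|`.
Case 1: `q' = (s/r, t/r, q/r)` is a point with `Rep q' s t r q`; `r < v = r⁴ + 25s⁴`; by
`Rep.double` (`2•q' = q' + q'`) `(2•q').S = 2srtq/(r⁴+25s⁴)`, its square is `p.S²`; `good_double`.
Case 2: `class_two`: if `r = 1` then `t² + s² = 5`, `5 + s² = q²` force `s = 2, t = 1, q = 3`,
`D = ±12`, `v = 41`, `p.S² = P1.S²`: `eq_of_S_sq`, `n = ±1`. If `r ≥ 2`: `Q` is rational
(`exists_rep`), its `v` is `≤ 25r² + 4s² < 25r⁴ + s⁴ = v` (`Rep.v_le`), so by induction `Q` is good: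
`Q = n•P1 + τ`, `2•Q = (2n)•P1`, `2•R = (2n ± 1)•P1 + τ'`, and `p.S² = (2•R).S²` gives by
`eq_of_S_sq` `p = ±2•R + τ''`. -/
theorem all_good : ∀ (k : ℕ) (p : CPt) (D u v w : ℤ), Rep p D u v w → v ≤ k →
    ∃ (n : ℤ) (τ : CPt), 2 • τ = 0 ∧ p = n • P1 + τ := by
  intro k
  induction k with
  | zero =>
    intro p D u v w h hv
    have := h.vpos
    simp at hv
    omega
  | succ k ih =>
    intro p D u v w h hv
    have hvpos := h.vpos
    have hvR : (0 : ℝ) < v := by exact_mod_cast hvpos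
    rcases eq_or_ne D 0 with hD | hD
    · refine ⟨0, p, tors_of_S ?_, by simp⟩
      rw [h.hS, hD]; simp
    · have e1 : u.natAbs ^ 2 + 5 * D.natAbs ^ 2 = v.natAbs ^ 2 := by
        have := h.eq1
        zify
        simpa [sq_abs] using this
      have e2 : v.natAbs ^ 2 + 5 * D.natAbs ^ 2 = w.natAbs ^ 2 := by
        have := h.eq2
        zify
        simpa [sq_abs] using this
      have e3 : Nat.Coprime D.natAbs v.natAbs := Int.isCoprime_iff_gcd_eq_one.1 h.cop
      have hDabs : |D| = (D.natAbs : ℤ) := Int.abs_eq_natAbs D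
      have hvabs : v = (v.natAbs : ℤ) := by omega
      have hpS : p.S ^ 2 = ((D.natAbs : ℝ) / (v.natAbs : ℝ)) ^ 2 := by
        rw [h.hS, div_pow, div_pow]
        have a1 : ((D.natAbs : ℝ)) ^ 2 = (D : ℝ) ^ 2 := by
          rw [Nat.cast_natAbs]; push_cast; exact sq_abs _
        have a2 : ((v.natAbs : ℝ)) ^ 2 = (v : ℝ) ^ 2 := by
          rw [Nat.cast_natAbs]; push_cast; exact sq_abs _
        rw [a1, a2]
      rcases descent_nat (Int.natAbs_pos.2 hD) e1 e2 e3 with
        ⟨s, t, r, q, hs, hr, hsr, f1, f2, f3, f4⟩ | ⟨s, t, r, q, hs, hr, f1, f2, f3, f4⟩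
      · -- first class
        have hrR : (0 : ℝ) < r := by exact_mod_cast hr
        have f1' : (t : ℝ) ^ 2 + 5 * s ^ 2 = r ^ 2 := by exact_mod_cast f1
        have f2' : (r : ℝ) ^ 2 + 5 * s ^ 2 = q ^ 2 := by exact_mod_cast f2
        let q' : CPt := ⟨s / r, t / r, q / r, by
            rw [div_pow, div_pow]; field_simp; linarith, by
            rw [div_pow, div_pow]; field_simp; linarith⟩
        have hq' : Rep q' s t r q :=
          ⟨by exact_mod_cast hr, Nat.isCoprime_iff_coprime.2 hsr, by simp [q'], by simp [q'],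
            by simp [q']⟩
        have hlt : (r : ℤ) ≤ k := by
          have g1 : r < r ^ 4 + 25 * s ^ 4 := by
            have a1 : r ≤ r ^ 4 := Nat.le_self_pow (by norm_num) r
            have a2 : 0 < s ^ 4 := by positivity
            omega
          have g2 : (r : ℤ) < v := by rw [hvabs, f4]; exact_mod_cast g1
          push_cast at hv
          omega
        have hg := ih q' s t r q hq' hlt
        refine good_double (q := q') ?_ hg
        have h2 := hq'.double.hS
        rw [two_smul, h2, hpS, f3, f4]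
        push_cast
        congr 2
      · -- second class
        obtain ⟨R, Q, τ, hτ, hRS, hRQ, hQS, hQc, hQd⟩ := class_two hs hr f1 f2
        have hpR : p.S ^ 2 = (2 • R).S ^ 2 := by
          rw [hRS, hpS, f3, f4]
          push_cast
          congr 2
        rcases Nat.lt_or_ge 1 r with hr1 | hr1
        · obtain ⟨D', u', v', w', hQ⟩ := exists_rep (p := Q)
            (x := (3 * s * r - 2 * t * q) / (25 * r ^ 2 + 4 * s ^ 2))
            (y := (5 * t * r + 6 * s * q) / (25 * r ^ 2 + 4 * s ^ 2))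
            (z := (15 * q * r - 2 * s * t) / (25 * r ^ 2 + 4 * s ^ 2))
            (by rw [hQS]; push_cast; ring) (by rw [hQc]; push_cast; ring)
            (by rw [hQd]; push_cast; ring)
          have hb : (0 : ℤ) < 25 * r ^ 2 + 4 * s ^ 2 := by
            have : 0 < 25 * r ^ 2 + 4 * s ^ 2 := by positivity
            exact_mod_cast this
          have hle := hQ.v_le (a := 3 * s * r - 2 * t * q) (b := 25 * r ^ 2 + 4 * s ^ 2) hb
            (by rw [hQS]; push_cast; ring)
          have hlt : v' ≤ k := by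
            have g1 : 25 * (r : ℤ) ^ 2 + 4 * s ^ 2 < 25 * r ^ 4 + s ^ 4 := by
              have a1 : (4 : ℤ) ≤ (r : ℤ) ^ 2 := by
                have : (2 : ℤ) ≤ r := by exact_mod_cast hr1
                nlinarith
              have a2 : (r : ℤ) ^ 4 = (r : ℤ) ^ 2 * (r : ℤ) ^ 2 := by ring
              have a3 : (s : ℤ) ^ 4 = (s : ℤ) ^ 2 * (s : ℤ) ^ 2 := by ring
              rw [a2, a3]
              nlinarith [sq_nonneg ((s : ℤ) ^ 2 - 2)]
            have g2 : (25 * (r : ℤ) ^ 4 + s ^ 4) = v := by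
              rw [hvabs, f4]; push_cast; ring
            push_cast at hv
            omega
          have hg : DescGood Q := ih Q D' u' v' w' hQ hlt
          obtain ⟨n, σ, hσ, hQn⟩ := hg
          have h2Q : 2 • Q = (2 * n) • P1 := by
            rw [hQn, smul_add, hσ, add_zero, two_smul, two_mul, add_smul]
          have hR : DescGood (2 • R) := by
            rcases hRQ with h3 | h3
            · refine ⟨2 * n + 1, τ, hτ, ?_⟩
              rw [h3, h2Q, add_smul, one_smul]
            · refine ⟨2 * n - 1, τ, hτ, ?_⟩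
              rw [h3, h2Q, sub_smul, one_smul]
          exact DescGood.of_S_sq hpR hR
        · have hr2 : r = 1 := by omega
          subst hr2
          have hP : DescGood P1 := ⟨1, 0, by simp, by simp⟩
          refine DescGood.of_S_sq ?_ hP
          obtain ⟨rfl, rfl, rfl⟩ := descC0_small hs f1 f2
          rw [hpS, f3, f4]
          simp [P1]

/-- Every solution in natural numbers with `D > 0` is `|n P1|`, `n ≥ 1`. Take the point
`p = (D/v, u/v, w/v)`; `p = n•P1 + τ`, `p.S² = (n•P1).S² = (|n|•P1).S²` (`add_tors_S`,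
`(-x).S² = x.S²`), then `rep_natAbs`. `n ≠ 0` since `D ≠ 0`. -/
theorem all_solutions {D u v w : ℕ} (hD : 0 < D) (h1 : u ^ 2 + 5 * D ^ 2 = v ^ 2)
    (h2 : v ^ 2 + 5 * D ^ 2 = w ^ 2) (hc : Nat.Coprime D v) :
    ∃ n, 1 ≤ n ∧ D = VD n ∧ u = Vu n ∧ v = VV n ∧ w = Vw n := by
  have hv : 0 < v := by
    rcases Nat.eq_zero_or_pos v with rfl | h
    · have : 0 < D ^ 2 := by positivity
      simp at h1
      omega
    · exact h
  have hvR : (0 : ℝ) < v := by exact_mod_cast hv
  have f1' : (u : ℝ) ^ 2 + 5 * D ^ 2 = v ^ 2 := by exact_mod_cast h1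
  have f2' : (v : ℝ) ^ 2 + 5 * D ^ 2 = w ^ 2 := by exact_mod_cast h2
  let p : CPt := ⟨D / v, u / v, w / v, by
      rw [div_pow, div_pow]; field_simp; linarith, by
      rw [div_pow, div_pow]; field_simp; linarith⟩
  have hp : Rep p D u v w :=
    ⟨by exact_mod_cast hv, Nat.isCoprime_iff_coprime.2 hc, by simp [p], by simp [p], by simp [p]⟩
  obtain ⟨n, τ, hτ, hpn⟩ := all_good v p D u v w hp le_rfl
  have hS : p.S ^ 2 = (n.natAbs • P1).S ^ 2 := by
    rw [hpn, add_tors_S hτ]
    rcases Int.natAbs_eq n with h | h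
    · conv_lhs => rw [h]
      rw [natCast_zsmul]
    · conv_lhs => rw [h]
      rw [neg_smul, natCast_zsmul, CPt.neg_S, neg_sq]
  obtain ⟨g1, g2, g3, g4⟩ := rep_natAbs hp n.natAbs hS
  simp only [Int.natAbs_natCast] at g1 g2 g3 g4
  refine ⟨n.natAbs, ?_, g1, g2, g3, g4⟩
  rcases Nat.eq_zero_or_pos n.natAbs with h0 | h0
  · exfalso
    rw [h0, zero_nsmul] at hS
    have h3 : p.S = 0 := by
      have : p.S ^ 2 = 0 := by rw [hS]; simp
      exact pow_eq_zero_iff (two_ne_zero) |>.1 this
    have h4 : (D : ℝ) / v = 0 := h3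
    have : (0 : ℝ) < (D : ℝ) / v := by
      have : (0 : ℝ) < D := by exact_mod_cast hD
      positivity
    linarith
  · exact h0

end Crest.Agent.SF
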