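import Crest.Agent.SF.DescC0

/-!
# Chunk R323-DESCC1: neighbours
-/

set_option autoImplicit false

namespace Crest.Agent.SF

/-- `Q'` is a neighbour of `Q` of larger height: for `Z = 1681 v² + 3600 D²` (the common denominator
of `Q ± P1`), `|S(Q ± P1)| = |1519 D v ± 492 u w|/Z` (`1519 = 31·49`, `492 = 12·41`). -/
def Nb (D u v w D' u' v' w' : ℕ) : Prop :=
  v < v' ∧ 0 < D' ∧ Nat.Coprime D' v' ∧ u' ^ 2 + 5 * D' ^ 2 = v' ^ 2 ∧ v' ^ 2 + 5 * D' ^ 2 = w' ^ 2 ∧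
    (D' * (1681 * v ^ 2 + 3600 * D ^ 2) = v' * (1519 * D * v + 492 * u * w) ∨
      (D' * (1681 * v ^ 2 + 3600 * D ^ 2) + v' * (492 * u * w) = v' * (1519 * D * v)) ∨
      (D' * (1681 * v ^ 2 + 3600 * D ^ 2) + v' * (1519 * D * v) = v' * (492 * u * w)))

theorem S_add_P1 {p : CPt} {D u v w : ℤ} (h : Rep p D u v w) :
    (p + P1).S = (1519 * D * v + 492 * (u * w)) / (1681 * v ^ 2 + 3600 * D ^ 2) := by
  have hv : (v : ℝ) ≠ 0 := by exact_mod_cast h.vpos.ne'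
  have hZ : (1681 * (v : ℝ) ^ 2 + 3600 * D ^ 2) ≠ 0 := by positivity
  rw [CPt.add_S, h.hS, h.hc, h.hd]
  have e1 : P1.S = 12 / 41 := rfl
  have e2 : P1.c = 31 / 41 := rfl
  have e3 : P1.d = 49 / 41 := rfl
  rw [e1, e2, e3]
  have hden : (1 : ℝ) + 25 * (D / v) ^ 2 * (12 / 41) ^ 2 ≠ 0 := by positivity
  rw [div_eq_div_iff hden hZ]
  field_simp
  ring

theorem S_sub_P1 {p : CPt} {D u v w : ℤ} (h : Rep p D u v w) :
    (p + -P1).S = (1519 * D * v - 492 * (u * w)) / (1681 * v ^ 2 + 3600 * D ^ 2) := by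
  have hv : (v : ℝ) ≠ 0 := by exact_mod_cast h.vpos.ne'
  have hZ : (1681 * (v : ℝ) ^ 2 + 3600 * D ^ 2) ≠ 0 := by positivity
  rw [CPt.add_S, h.hS, h.hc, h.hd]
  have e1 : (-P1).S = -(12 / 41) := rfl
  have e2 : (-P1).c = 31 / 41 := rfl
  have e3 : (-P1).d = 49 / 41 := rfl
  rw [e1, e2, e3]
  have hden : (1 : ℝ) + 25 * (D / v) ^ 2 * (-(12 / 41)) ^ 2 ≠ 0 := by positivity
  rw [div_eq_div_iff hden hZ]
  field_simp
  ring

theorem sq_cases {x y a b Z : ℝ} (hZ : 0 < Z) (hx : 0 ≤ x) (hy : 0 < y) :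
    ((x / y) ^ 2 = ((a + b) / Z) ^ 2 ∨ (x / y) ^ 2 = ((a - b) / Z) ^ 2) ↔
      (x * Z = y * (|a| + |b|) ∨ x * Z + y * |b| = y * |a| ∨ x * Z + y * |a| = y * |b|) := by
  have hab : ((a + b) ^ 2 = (|a| + |b|) ^ 2 ∧ (a - b) ^ 2 = (|a| - |b|) ^ 2) ∨
      ((a + b) ^ 2 = (|a| - |b|) ^ 2 ∧ (a - b) ^ 2 = (|a| + |b|) ^ 2) := by
    rcases abs_cases a with ⟨h1, _⟩ | ⟨h1, _⟩ <;> rcases abs_cases b with ⟨h2, _⟩ | ⟨h2, _⟩ <;>
      rw [h1, h2]
    · left; constructor <;> ring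
    · right; constructor <;> ring
    · right; constructor <;> ring
    · left; constructor <;> ring
  have key : ∀ c : ℝ, (x / y) ^ 2 = (c / Z) ^ 2 ↔ (x * Z) ^ 2 = (y * c) ^ 2 := by
    intro c
    rw [div_pow, div_pow, div_eq_div_iff (by positivity) (by positivity), mul_pow, mul_pow]
    constructor <;> intro h <;> linarith
  have e1 : ∀ c c' : ℝ, c ^ 2 = c' ^ 2 → ((x / y) ^ 2 = (c / Z) ^ 2 ↔ (x * Z) ^ 2 = (y * c') ^ 2) := by
    intro c c' hc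
    rw [key c, mul_pow y c, mul_pow y c', hc]
  have hxZ : 0 ≤ x * Z := by positivity
  have p1 : (x * Z) ^ 2 = (y * (|a| + |b|)) ^ 2 ↔ x * Z = y * (|a| + |b|) := by
    constructor
    · intro h
      have := (pow_left_inj₀ hxZ (by positivity) (two_ne_zero)).1 h
      exact this
    · intro h; rw [h]
  have p2 : (x * Z) ^ 2 = (y * (|a| - |b|)) ^ 2 ↔
      (x * Z + y * |b| = y * |a| ∨ x * Z + y * |a| = y * |b|) := by
    rw [sq_eq_sq_iff_eq_or_eq_neg]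
    constructor
    · rintro (h | h)
      · left; rw [h]; ring
      · right; rw [h]; ring
    · rintro (h | h)
      · left; linarith
      · right; linarith
  rcases hab with ⟨h1, h2⟩ | ⟨h1, h2⟩
  · rw [e1 _ _ h1, e1 _ _ h2, p1, p2]
  · rw [e1 _ _ h1, e1 _ _ h2, p1, p2]
    tauto

theorem nb_key (n : ℕ) (hn : 1 ≤ n) (D' v' : ℕ) (hv' : 0 < v') :
    ((D' * (1681 * VV n ^ 2 + 3600 * VD n ^ 2) = v' * (1519 * VD n * VV n + 492 * Vu n * Vw n) ∨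
      (D' * (1681 * VV n ^ 2 + 3600 * VD n ^ 2) + v' * (492 * Vu n * Vw n) =
        v' * (1519 * VD n * VV n)) ∨
      (D' * (1681 * VV n ^ 2 + 3600 * VD n ^ 2) + v' * (1519 * VD n * VV n) =
        v' * (492 * Vu n * Vw n)))) ↔
    (((D' : ℝ) / v') ^ 2 = ((n + 1) • P1).S ^ 2 ∨ ((D' : ℝ) / v') ^ 2 = ((n - 1) • P1).S ^ 2) := by
  have h := rep_q n
  have e1 : (n + 1) • P1 = n • P1 + P1 := succ_nsmul P1 n
  have e2 : (n - 1) • P1 = n • P1 + -P1 := by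
    obtain ⟨m, rfl⟩ : ∃ m, n = m + 1 := ⟨n - 1, by omega⟩
    rw [Nat.add_sub_cancel, succ_nsmul, add_neg_cancel_right]
  have hv : (0 : ℝ) < qv n := by exact_mod_cast h.vpos
  have cv : ((VV n : ℕ) : ℝ) = qv n := by exact_mod_cast VV_cast n
  have cD : ((VD n : ℕ) : ℝ) = |(qD n : ℝ)| := by
    unfold VD; rw [Nat.cast_natAbs]; push_cast; rfl
  have cu : ((Vu n : ℕ) : ℝ) = |(qu n : ℝ)| := by
    unfold Vu; rw [Nat.cast_natAbs]; push_cast; rfl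
  have cw : ((Vw n : ℕ) : ℝ) = |(qw n : ℝ)| := by
    unfold Vw; rw [Nat.cast_natAbs]; push_cast; rfl
  rw [e1, e2, S_add_P1 h, S_sub_P1 h]
  have hZ : (0 : ℝ) < 1681 * (qv n : ℝ) ^ 2 + 3600 * (qD n : ℝ) ^ 2 := by positivity
  have hc := sq_cases (x := (D' : ℝ)) (y := (v' : ℝ)) (a := 1519 * (qD n : ℝ) * qv n)
    (b := 492 * ((qu n : ℝ) * qw n)) hZ (Nat.cast_nonneg _) (by exact_mod_cast hv')
  rw [hc]
  have eA : |1519 * (qD n : ℝ) * qv n| = 1519 * (VD n : ℝ) * VV n := by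
    rw [cD, cv, abs_mul, abs_mul, abs_of_pos hv]
    norm_num
  have eB : |492 * ((qu n : ℝ) * qw n)| = 492 * (Vu n : ℝ) * Vw n := by
    rw [cu, cw, abs_mul, abs_mul, mul_assoc]
    norm_num
  have eZ : 1681 * (qv n : ℝ) ^ 2 + 3600 * (qD n : ℝ) ^ 2 =
      1681 * (VV n : ℝ) ^ 2 + 3600 * (VD n : ℝ) ^ 2 := by
    rw [cv, cD, sq_abs]
  rw [eA, eB, eZ]
  refine or_congr ?_ (or_congr ?_ ?_)
  · exact_mod_cast Iff.rfl
  · exact_mod_cast Iff.rfl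
  · exact_mod_cast Iff.rfl

/-- `Nb |nP1| Q'` iff `Q' = |(n+1)P1|`. Proof. `n•P1 = (e1 D, e2 u, v, e3 w)/v` with signs `e_i`
(`rep_q`, `VD` etc. are the absolute values). `(n•P1 + P1).S = (1519 e1 D v + 492 e2 e3 u w)/Z` and
`(n•P1 - P1).S = (1519 e1 D v - 492 e2 e3 u w)/Z`, so
`{|((n+1)•P1).S|, |((n-1)•P1).S|} = {(1519Dv + 492uw)/Z, |1519Dv - 492uw|/Z}`.
(→) the last condition says `D'/v' = |(m•P1).S|` with `m = n+1` or `m = n-1`; the point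
`(D'/v', u'/v', w'/v')` has a `Rep`, so by `rep_natAbs` `Q' = |m P1|`, and `v < v'` excludes `m = n-1`
(`VV_strictMono`). (←) `Q' = |(n+1)P1|`: the equations are `V_eqs`, `VD_pos`, `VV_strictMono`, and
`VD (n+1)/VV (n+1) = |((n+1)•P1).S|` is one of the two values. -/
theorem nb_iff (n : ℕ) (hn : 1 ≤ n) (D' u' v' w' : ℕ) :
    Nb (VD n) (Vu n) (VV n) (Vw n) D' u' v' w' ↔
      D' = VD (n + 1) ∧ u' = Vu (n + 1) ∧ v' = VV (n + 1) ∧ w' = Vw (n + 1) := by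
  constructor
  · rintro ⟨hlt, hD', hcop, h1, h2, h3⟩
    have hv' : 0 < v' := by omega
    have hv'R : (v' : ℝ) ≠ 0 := by positivity
    rw [nb_key n hn D' v' hv'] at h3
    have g1 : (u' : ℝ) ^ 2 + 5 * (D' : ℝ) ^ 2 = (v' : ℝ) ^ 2 := by exact_mod_cast h1
    have g2 : (v' : ℝ) ^ 2 + 5 * (D' : ℝ) ^ 2 = (w' : ℝ) ^ 2 := by exact_mod_cast h2
    let p : CPt := ⟨D' / v', u' / v', w' / v', by field_simp; linarith, by field_simp; linarith⟩
    have hp : Rep p D' u' v' w' :=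
      ⟨by exact_mod_cast hv', by exact_mod_cast (Nat.isCoprime_iff_coprime.2 hcop),
        by simp [p], by simp [p], by simp [p]⟩
    have hm : ∀ m : ℕ, ((D' : ℝ) / v') ^ 2 = (m • P1).S ^ 2 →
        D' = VD m ∧ u' = Vu m ∧ v' = VV m ∧ w' = Vw m := by
      intro m hm
      have := rep_natAbs hp m (by rw [← hm])
      simpa using this
    rcases h3 with h3 | h3
    · exact hm (n + 1) h3
    · exfalso
      obtain ⟨_, _, h5, _⟩ := hm (n - 1) h3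
      have := VV_strictMono (show n - 1 < n by omega)
      omega
  · rintro ⟨rfl, rfl, rfl, rfl⟩
    obtain ⟨h1, h2, h3⟩ := V_eqs (n + 1)
    refine ⟨VV_strictMono (Nat.lt_succ_self n), VD_pos _ (by omega), h3, h1, h2, ?_⟩
    rw [nb_key n hn _ _ (VV_pos (n + 1))]
    left
    rw [(rep_q (n + 1)).hS]
    have cv : ((VV (n + 1) : ℕ) : ℝ) = qv (n + 1) := by exact_mod_cast VV_cast (n + 1)
    have cD : ((VD (n + 1) : ℕ) : ℝ) = |(qD (n + 1) : ℝ)| := by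
      unfold VD; rw [Nat.cast_natAbs]; push_cast; rfl
    rw [cv, cD, div_pow, div_pow, sq_abs]

end Crest.Agent.SF
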