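import Crest.Agent.SF.Clos

set_option autoImplicit false

namespace Crest.Agent.SF

theorem final_form (n : ℕ) (S : Set (Fin n → ℕ)) (h : SFD (fun a : Fin n → ℕ => a ∈ S)) :
    ∃ m : ℕ, 1 ≤ m ∧ ∃ P : MvPolynomial (Fin n ⊕ Fin m) ℤ, ∀ a : Fin n → ℕ,
      (a ∈ S → ∃! w : Fin m → ℕ, MvPolynomial.eval
        (Sum.elim (fun i => (a i : ℤ)) (fun j => (w j : ℤ))) P = 0) ∧
      (a ∉ S → ∀ w : Fin m → ℕ, MvPolynomial.eval
        (Sum.elim (fun i => (a i : ℤ)) (fun j => (w j : ℤ))) P ≠ 0) := by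
  -- add a dummy unknown so that there is at least one unknown
  have h1 : SFD (fun a : Fin n → ℕ => ∃ x : ℕ, a ∈ S ∧ x = 0) := by
    refine SFD.ex (fun (a : Fin n → ℕ) x => a ∈ S ∧ x = 0) ?_ (by rintro a x y ⟨_, h1⟩ ⟨_, h2⟩; omega)
    exact (h.reindex some).and (SFD.eq (SFF.var _) (SFF.const 0))
  obtain ⟨β, hβ, F, ⟨p, hp⟩, H⟩ := h
  -- unknowns: Fin (card β + 1), the last one pinned to 0
  let e : β ≃ Fin (Fintype.card β) := Fintype.equivFin β
  let m := Fintype.card β + 1
  let r : Fin n ⊕ β → Fin n ⊕ Fin m := Sum.map id (fun j => (e j).castSucc)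
  refine ⟨m, by omega, (MvPolynomial.rename r p) ^ 2 +
    (MvPolynomial.X (Sum.inr (Fin.last (Fintype.card β)))) ^ 2, fun a => ?_⟩
  have key : ∀ w : Fin m → ℕ, MvPolynomial.eval
      (Sum.elim (fun i => (a i : ℤ)) (fun j => (w j : ℤ))) ((MvPolynomial.rename r p) ^ 2 +
      (MvPolynomial.X (Sum.inr (Fin.last (Fintype.card β)))) ^ 2) = 0 ↔
      F (Sum.elim a (fun j => w ((e j).castSucc))) = 0 ∧ w (Fin.last (Fintype.card β)) = 0 := by
    intro w
    have e1 : MvPolynomial.eval (Sum.elim (fun i => (a i : ℤ)) (fun j => (w j : ℤ)))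
        (MvPolynomial.rename r p) = F (Sum.elim a (fun j => w ((e j).castSucc))) := by
      rw [hp, MvPolynomial.eval_rename]
      congr 2
      funext i
      cases i <;> rfl
    rw [map_add, map_pow, map_pow, e1, MvPolynomial.eval_X, Sum.elim_inr]
    constructor
    · intro h
      have h1 : (F (Sum.elim a (fun j => w ((e j).castSucc)))) ^ 2 = 0 := by
        nlinarith [sq_nonneg (F (Sum.elim a (fun j => w ((e j).castSucc)))),
          sq_nonneg ((w (Fin.last (Fintype.card β)) : ℕ) : ℤ)]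
      have h2 : ((w (Fin.last (Fintype.card β)) : ℕ) : ℤ) ^ 2 = 0 := by
        nlinarith [sq_nonneg (F (Sum.elim a (fun j => w ((e j).castSucc)))),
          sq_nonneg ((w (Fin.last (Fintype.card β)) : ℕ) : ℤ)]
      exact ⟨by simpa using h1, by simpa using h2⟩
    · rintro ⟨h1, h2⟩
      rw [h1, h2]; simp
  constructor
  · intro ha
    obtain ⟨w, hw⟩ := (H a).1.1 ha
    refine ⟨Fin.snoc (fun j => w (e.symm j)) 0, ?_, ?_⟩
    · show MvPolynomial.eval _ _ = 0
      rw [key]
      refine ⟨?_, by simp⟩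
      simpa using hw
    · intro w' hw'
      have hw'' := (key w').1 hw'
      have := (H a).2 _ _ hw hw''.1
      funext j
      refine Fin.lastCases ?_ ?_ j
      · rw [hw''.2]; simp
      · intro j
        have h3 := congrFun this (e.symm j)
        simp at h3
        simp [h3]
  · intro ha w hw
    exact ha ((H a).1.2 ⟨_, ((key w).1 hw).1⟩)

end Crest.Agent.SF
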