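import Crest.Agent.SF.GraphDef

/-!
# Chunk R323-GRAPHA1
-/

set_option autoImplicit false

namespace Crest.Agent.SF

/-- Meaning of the system: for `X = PX l`, `Y = PY l` it says `l ≥ 300` and there is `n ≥ 1` with
`Q = |nP1|, Q' = |(n+1)P1|, Q'' = |(n+2)P1|` (`isQ_iff`, `nb_iff`), `(x,y) = P(kp n)`,
`(x1,y1) = P(kp (n+1))`, `(x2,y2) = P(kp (n+2))` (`SZ_iff`), `PX (kp (n+1)) ≤ PX (l + kp n)`
(`PX_add`), `PX (l + kp (n+1)) < PX (kp (n+2))`, i.e. `Pin l n` (`PX_strictMono`). -/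
theorem sysRK_iff (X Y x y D u v w D' u' v' w' D'' u'' v'' w'' x1 y1 x2 y2 : ℕ) :
    SysRK X Y x y D u v w D' u' v' w' D'' u'' v'' w'' x1 y1 x2 y2 ↔
      ∃ l n, 300 ≤ l ∧ Pin l n ∧ X = PX l ∧ Y = PY l ∧ x = PX (kp n) ∧ y = PY (kp n) ∧
        D = VD n ∧ u = Vu n ∧ v = VV n ∧ w = Vw n ∧
        D' = VD (n + 1) ∧ u' = Vu (n + 1) ∧ v' = VV (n + 1) ∧ w' = Vw (n + 1) ∧
        D'' = VD (n + 2) ∧ u'' = Vu (n + 2) ∧ v'' = VV (n + 2) ∧ w'' = Vw (n + 2) ∧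
        x1 = PX (kp (n + 1)) ∧ y1 = PY (kp (n + 1)) ∧ x2 = PX (kp (n + 2)) ∧
        y2 = PY (kp (n + 2)) := by
  constructor
  · rintro ⟨h1, h2, h3, h4, h5, h6, h7, h8, h9, h10⟩
    obtain ⟨n, hn, rfl, rfl, rfl, rfl⟩ := (isQ_iff _ _ _ _).1 h1
    obtain ⟨rfl, rfl, rfl, rfl⟩ := (nb_iff n hn _ _ _ _).1 h2
    obtain ⟨rfl, rfl, rfl, rfl⟩ := (nb_iff (n + 1) (by omega) _ _ _ _).1 h3
    obtain ⟨l, rfl, rfl⟩ := pell_all h4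
    obtain ⟨rfl, rfl⟩ := (SZ_iff _ _ _ (VV_pos _)).1 h6
    obtain ⟨rfl, rfl⟩ := (SZ_iff _ _ _ (VV_pos _)).1 h7
    obtain ⟨rfl, rfl⟩ := (SZ_iff _ _ _ (VV_pos _)).1 h8
    rw [← PX_add] at h9 h10
    exact ⟨l, n, PX_strictMono.le_iff_le.1 h5,
      ⟨hn, PX_strictMono.le_iff_le.1 h9, PX_strictMono.lt_iff_lt.1 h10⟩, rfl, rfl, rfl, rfl,
      rfl, rfl, rfl, rfl, rfl, rfl, rfl, rfl, rfl, rfl, rfl, rfl, rfl, rfl, rfl, rfl⟩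
  · rintro ⟨l, n, hl, ⟨hn, h9, h10⟩, rfl, rfl, rfl, rfl, rfl, rfl, rfl, rfl, rfl, rfl, rfl, rfl,
      rfl, rfl, rfl, rfl, rfl, rfl, rfl, rfl⟩
    refine ⟨(isQ_iff _ _ _ _).2 ⟨n, hn, rfl, rfl, rfl, rfl⟩,
      (nb_iff n hn _ _ _ _).2 ⟨rfl, rfl, rfl, rfl⟩,
      (nb_iff (n + 1) (by omega) _ _ _ _).2 ⟨rfl, rfl, rfl, rfl⟩, PX_sq l,
      PX_strictMono.monotone hl, (SZ_iff _ _ _ (VV_pos _)).2 ⟨rfl, rfl⟩,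
      (SZ_iff _ _ _ (VV_pos _)).2 ⟨rfl, rfl⟩, (SZ_iff _ _ _ (VV_pos _)).2 ⟨rfl, rfl⟩, ?_, ?_⟩
    · rw [← PX_add]; exact PX_strictMono.monotone h9
    · rw [← PX_add]; exact PX_strictMono h10

end Crest.Agent.SF
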