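import Crest.Agent.SF.GraphA0
import Crest.Agent.SF.GraphA1

/-!
# Chunk R323-GRAPHA: the relation `RK` is single-fold
-/

set_option autoImplicit false

namespace Crest.Agent.SF

/-- the system `SysRK` with the witnesses indexed by `Fin 16` -/
def GA_Sys (a : Fin 4 → ℕ) (u : Fin 16 → ℕ) : Prop :=
  SysRK (a 0) (a 1) (a 2) (a 3) (u 0) (u 1) (u 2) (u 3) (u 4) (u 5) (u 6) (u 7)
    (u 8) (u 9) (u 10) (u 11) (u 12) (u 13) (u 14) (u 15)

theorem GA_sfd_sys : SFD (fun b : Fin 4 ⊕ Fin 16 → ℕ =>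
    GA_Sys (fun i => b (Sum.inl i)) (fun j => b (Sum.inr j))) := by
  have h1 : SFD (fun b : Fin 4 ⊕ Fin 16 → ℕ =>
      IsQ (b (.inr 0)) (b (.inr 1)) (b (.inr 2)) (b (.inr 3))) :=
    sfd_IsQ.reindex (α := Fin 4 ⊕ Fin 16) ![.inr 0, .inr 1, .inr 2, .inr 3]
  have h2 : SFD (fun b : Fin 4 ⊕ Fin 16 → ℕ =>
      Nb (b (.inr 0)) (b (.inr 1)) (b (.inr 2)) (b (.inr 3))
        (b (.inr 4)) (b (.inr 5)) (b (.inr 6)) (b (.inr 7))) :=
    sfd_Nb.reindex (α := Fin 4 ⊕ Fin 16)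
      ![.inr 0, .inr 1, .inr 2, .inr 3, .inr 4, .inr 5, .inr 6, .inr 7]
  have h3 : SFD (fun b : Fin 4 ⊕ Fin 16 → ℕ =>
      Nb (b (.inr 4)) (b (.inr 5)) (b (.inr 6)) (b (.inr 7))
        (b (.inr 8)) (b (.inr 9)) (b (.inr 10)) (b (.inr 11))) :=
    sfd_Nb.reindex (α := Fin 4 ⊕ Fin 16)
      ![.inr 4, .inr 5, .inr 6, .inr 7, .inr 8, .inr 9, .inr 10, .inr 11]
  have h4 : SFD (fun b : Fin 4 ⊕ Fin 16 → ℕ => b (.inl 0) ^ 2 = 3 * b (.inl 1) ^ 2 + 1) :=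
    SFD.eq ((SFF.var _).npow 2) (((SFF.const 3).mul ((SFF.var _).npow 2)).add (SFF.const 1))
  have h5 : SFD (fun b : Fin 4 ⊕ Fin 16 → ℕ => PX 300 ≤ b (.inl 0)) :=
    SFD.le (SFF.const _) (SFF.var _)
  have h6 : SFD (fun b : Fin 4 ⊕ Fin 16 → ℕ => SZ (b (.inr 2)) (b (.inl 2)) (b (.inl 3))) :=
    sfd_SZ.reindex (α := Fin 4 ⊕ Fin 16) ![.inr 2, .inl 2, .inl 3]
  have h7 : SFD (fun b : Fin 4 ⊕ Fin 16 → ℕ => SZ (b (.inr 6)) (b (.inr 12)) (b (.inr 13))) :=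
    sfd_SZ.reindex (α := Fin 4 ⊕ Fin 16) ![.inr 6, .inr 12, .inr 13]
  have h8 : SFD (fun b : Fin 4 ⊕ Fin 16 → ℕ => SZ (b (.inr 10)) (b (.inr 14)) (b (.inr 15))) :=
    sfd_SZ.reindex (α := Fin 4 ⊕ Fin 16) ![.inr 10, .inr 14, .inr 15]
  have h9 : SFD (fun b : Fin 4 ⊕ Fin 16 → ℕ =>
      b (.inr 12) ≤ b (.inl 0) * b (.inl 2) + 3 * b (.inl 1) * b (.inl 3)) :=
    SFD.le (SFF.var _) (((SFF.var _).mul (SFF.var _)).add
      (((SFF.const 3).mul (SFF.var _)).mul (SFF.var _)))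
  have h10 : SFD (fun b : Fin 4 ⊕ Fin 16 → ℕ =>
      b (.inl 0) * b (.inr 12) + 3 * b (.inl 1) * b (.inr 13) < b (.inr 14)) :=
    SFD.lt (((SFF.var _).mul (SFF.var _)).add
      (((SFF.const 3).mul (SFF.var _)).mul (SFF.var _))) (SFF.var _)
  exact h1.and (h2.and (h3.and (h4.and (h5.and (h6.and (h7.and (h8.and (h9.and h10))))))))

theorem GA_unique (a : Fin 4 → ℕ) (u v : Fin 16 → ℕ) (hu : GA_Sys a u) (hv : GA_Sys a v) :
    u = v := by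
  obtain ⟨l, n, hl, hp, hX, -, -, -, h0, h1, h2, h3, h4, h5, h6, h7, h8, h9, h10, h11, h12, h13,
    h14, h15⟩ := (sysRK_iff _ _ _ _ _ _ _ _ _ _ _ _ _ _ _ _ _ _ _ _).1 hu
  obtain ⟨l', n', hl', hp', hX', -, -, -, g0, g1, g2, g3, g4, g5, g6, g7, g8, g9, g10, g11, g12,
    g13, g14, g15⟩ := (sysRK_iff _ _ _ _ _ _ _ _ _ _ _ _ _ _ _ _ _ _ _ _).1 hv
  have el : l = l' := PX_strictMono.injective (hX.symm.trans hX')
  subst el
  have en : n = n' := (pin_exists_unique l hl).unique hp hp'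
  subst en
  funext i
  fin_cases i
  · exact h0.trans g0.symm
  · exact h1.trans g1.symm
  · exact h2.trans g2.symm
  · exact h3.trans g3.symm
  · exact h4.trans g4.symm
  · exact h5.trans g5.symm
  · exact h6.trans g6.symm
  · exact h7.trans g7.symm
  · exact h8.trans g8.symm
  · exact h9.trans g9.symm
  · exact h10.trans g10.symm
  · exact h11.trans g11.symm
  · exact h12.trans g12.symm
  · exact h13.trans g13.symm
  · exact h14.trans g14.symm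
  · exact h15.trans g15.symm

/-- `SFD.ex_fam` with `γ = Fin 16` (the witnesses of `SysRK`), context `Fin 4 ⊕ Fin 16`; the relation
inside is a conjunction of `sfd_IsQ`, `sfd_Nb`, `sfd_SZ` (reindexed by `SFD.reindex`), polynomial
equations, and inequalities. Uniqueness of the witnesses: by `sysRK_iff`, `X = PX l` determines `l`
(`PX_strictMono.injective`), `l` determines `n` (`pin_exists_unique`). -/
theorem sfd_RK : SFD (fun b : Fin 4 → ℕ => RK (b 0) (b 1) (b 2) (b 3)) := by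
  refine (SFD.ex_fam GA_Sys GA_sfd_sys GA_unique).congr fun a => ?_
  constructor
  · rintro ⟨l, n, hl, hp, hX, hY, hx, hy⟩
    refine ⟨![VD n, Vu n, VV n, Vw n, VD (n + 1), Vu (n + 1), VV (n + 1), Vw (n + 1),
      VD (n + 2), Vu (n + 2), VV (n + 2), Vw (n + 2), PX (kp (n + 1)), PY (kp (n + 1)),
      PX (kp (n + 2)), PY (kp (n + 2))], ?_⟩
    exact (sysRK_iff _ _ _ _ _ _ _ _ _ _ _ _ _ _ _ _ _ _ _ _).2
      ⟨l, n, hl, hp, hX, hY, hx, hy, rfl, rfl, rfl, rfl, rfl, rfl, rfl, rfl, rfl, rfl, rfl, rfl,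
        rfl, rfl, rfl, rfl⟩
  · rintro ⟨u, hu⟩
    obtain ⟨l, n, hl, hp, hX, hY, hx, hy, -⟩ :=
      (sysRK_iff _ _ _ _ _ _ _ _ _ _ _ _ _ _ _ _ _ _ _ _).1 hu
    exact ⟨l, n, hl, hp, hX, hY, hx, hy⟩

end Crest.Agent.SF
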