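import Crest.Agent.SF.GraphDef

/-!
# Chunk R323-GRAPHA0
-/

set_option autoImplicit false

namespace Crest.Agent.SF

theorem sfd_IsQ : SFD (fun b : Fin 4 → ℕ => IsQ (b 0) (b 1) (b 2) (b 3)) := by
  unfold IsQ
  exact (SFD.pos (SFF.var _)).and
    ((SFD.eq (((SFF.var _).npow 2).add ((SFF.const 5).mul ((SFF.var _).npow 2)))
      ((SFF.var _).npow 2)).and
    ((SFD.eq (((SFF.var _).npow 2).add ((SFF.const 5).mul ((SFF.var _).npow 2)))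
      ((SFF.var _).npow 2)).and (SFD.coprime (SFF.var _) (SFF.var _))))

theorem sfd_SZ : SFD (fun b : Fin 3 → ℕ => SZ (b 0) (b 1) (b 2)) := by
  unfold SZ
  exact (SFD.eq ((SFF.var _).npow 2)
      (((SFF.const 3).mul ((SFF.var _).npow 2)).add (SFF.const 1))).and
    ((SFD.le (SFF.var _) (SFF.var _)).and
      (SFD.lt (SFF.var _) (((SFF.const 2).mul (SFF.var _)).add ((SFF.const 3).mul (SFF.var _)))))

/-- The last condition is a disjunction of three polynomial equations: it is equivalent to ONE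
polynomial equation (product of the three differences, over `ℤ`), use `SFD.of_poly`/`SFD.poly_eq`
(`SFD.or` would need disjointness). -/
theorem sfd_Nb : SFD (fun b : Fin 8 → ℕ =>
    Nb (b 0) (b 1) (b 2) (b 3) (b 4) (b 5) (b 6) (b 7)) := by
  have hZ : IsPoly (fun b : Fin 8 → ℕ => (b 4 : ℤ) * (1681 * (b 2 : ℤ) ^ 2 + 3600 * (b 0 : ℤ) ^ 2)) :=
    (IsPoly.var 4).mul (((IsPoly.const 1681).mul ((IsPoly.var 2).pow 2)).add
      ((IsPoly.const 3600).mul ((IsPoly.var 0).pow 2)))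
  have hA : IsPoly (fun b : Fin 8 → ℕ => (b 6 : ℤ) * (1519 * (b 0 : ℤ) * (b 2 : ℤ))) :=
    (IsPoly.var 6).mul (((IsPoly.const 1519).mul (IsPoly.var 0)).mul (IsPoly.var 2))
  have hB : IsPoly (fun b : Fin 8 → ℕ => (b 6 : ℤ) * (492 * (b 1 : ℤ) * (b 3 : ℤ))) :=
    (IsPoly.var 6).mul (((IsPoly.const 492).mul (IsPoly.var 1)).mul (IsPoly.var 3))
  have hprod : SFD (fun b : Fin 8 → ℕ =>
      ((b 4 : ℤ) * (1681 * (b 2 : ℤ) ^ 2 + 3600 * (b 0 : ℤ) ^ 2) -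
        ((b 6 : ℤ) * (1519 * (b 0 : ℤ) * (b 2 : ℤ)) + (b 6 : ℤ) * (492 * (b 1 : ℤ) * (b 3 : ℤ)))) *
      (((b 4 : ℤ) * (1681 * (b 2 : ℤ) ^ 2 + 3600 * (b 0 : ℤ) ^ 2) +
        (b 6 : ℤ) * (492 * (b 1 : ℤ) * (b 3 : ℤ)) - (b 6 : ℤ) * (1519 * (b 0 : ℤ) * (b 2 : ℤ))) *
      ((b 4 : ℤ) * (1681 * (b 2 : ℤ) ^ 2 + 3600 * (b 0 : ℤ) ^ 2) +
        (b 6 : ℤ) * (1519 * (b 0 : ℤ) * (b 2 : ℤ)) - (b 6 : ℤ) * (492 * (b 1 : ℤ) * (b 3 : ℤ)))) = 0) :=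
    SFD.of_poly ((hZ.sub (hA.add hB)).mul (((hZ.add hB).sub hA).mul ((hZ.add hA).sub hB)))
  have hlast : SFD (fun b : Fin 8 → ℕ =>
      (b 4 * (1681 * b 2 ^ 2 + 3600 * b 0 ^ 2) = b 6 * (1519 * b 0 * b 2 + 492 * b 1 * b 3) ∨
      (b 4 * (1681 * b 2 ^ 2 + 3600 * b 0 ^ 2) + b 6 * (492 * b 1 * b 3) = b 6 * (1519 * b 0 * b 2)) ∨
      (b 4 * (1681 * b 2 ^ 2 + 3600 * b 0 ^ 2) + b 6 * (1519 * b 0 * b 2) =
        b 6 * (492 * b 1 * b 3)))) := by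
    refine hprod.congr fun b => ?_
    rw [mul_eq_zero, mul_eq_zero, sub_eq_zero, sub_eq_zero, sub_eq_zero]
    refine or_congr ?_ (or_congr ?_ ?_)
    · rw [← mul_add]
      exact_mod_cast Iff.rfl
    · exact_mod_cast Iff.rfl
    · exact_mod_cast Iff.rfl
  unfold Nb
  exact (SFD.lt (SFF.var _) (SFF.var _)).and ((SFD.pos (SFF.var _)).and
    ((SFD.coprime (SFF.var _) (SFF.var _)).and
    ((SFD.eq (((SFF.var _).npow 2).add ((SFF.const 5).mul ((SFF.var _).npow 2)))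
      ((SFF.var _).npow 2)).and
    ((SFD.eq (((SFF.var _).npow 2).add ((SFF.const 5).mul ((SFF.var _).npow 2)))
      ((SFF.var _).npow 2)).and hlast))))

end Crest.Agent.SF
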