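import Crest.Agent.SF.PellBase

/-!
# Chunk R323-PELLDIV: divisibility for Pell numbers
-/

set_option autoImplicit false

namespace Crest.Agent.SF

/-- `PY (l+1) = PX l + 2 PY l` and `gcd(PX l, PY l) = 1` (`PXY_coprime`). -/
theorem PY_coprime_succ (l : ℕ) : Nat.Coprime (PY l) (PY (l + 1)) := by
  rw [PY_succ]
  have h := (PXY_coprime l).symm
  rwa [Nat.coprime_add_mul_right_right]

/-- From `PY_coprime_succ` (`Nat.Coprime.mul_dvd_of_dvd_of_dvd`), `PY_dvd_iff`, and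
`Nat.Coprime l (l+1)`. -/
theorem PY_mul_succ_dvd_iff (l x : ℕ) : PY l * PY (l + 1) ∣ PY x ↔ l * (l + 1) ∣ x := by
  have hc : Nat.Coprime l (l + 1) := by simp
  constructor
  · intro h
    exact hc.mul_dvd_of_dvd_of_dvd ((PY_dvd_iff _ _).1 (dvd_of_mul_right_dvd h))
      ((PY_dvd_iff _ _).1 (dvd_of_mul_left_dvd h))
  · intro h
    exact (PY_coprime_succ l).mul_dvd_of_dvd_of_dvd ((PY_dvd_iff _ _).2 (dvd_of_mul_right_dvd h))
      ((PY_dvd_iff _ _).2 (dvd_of_mul_left_dvd h))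

/-- `PY (l*m) = PY l * q` with `q ≡ m mod (PX l - 1)`.
Induction on `m` together with `PX (l*m) ≡ 1 mod (PX l - 1)`:
`PX (l*(m+1)) = PX (l*m) PX l + 3 PY (l*m) PY l`, and `3 PY l ^ 2 = PX l^2 - 1 ≡ 0`,
so `3 PY(l*m) PY l = 3 q PY l^2 ≡ 0`; and `PY (l*(m+1)) = PX (l*m) PY l + PY (l*m) PX l
= PY l (PX (l*m) + q PX l)`, quotient `PX (l*m) + q PX l ≡ 1 + q`.
(For `l = 0` the modulus is `0` and `PY l = 0`; the same induction works:
`PX (0*m) = 1`.) -/
theorem PY_quot (l m : ℕ) : ∃ q, PY (l * m) = PY l * q ∧ q ≡ m [MOD (PX l - 1)] := by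
  have hP : PX l ≡ 1 [MOD (PX l - 1)] := by
    have h1 : PX l = (PX l - 1) + 1 := (Nat.sub_add_cancel (PX_pos l)).symm
    have h2 : (PX l - 1) + 1 ≡ 1 [MOD (PX l - 1)] := by simp [Nat.ModEq]
    rwa [← h1] at h2
  have hY : 3 * PY l ^ 2 ≡ 0 [MOD (PX l - 1)] := by
    rw [Nat.modEq_zero_iff_dvd]
    refine ⟨PX l + 1, ?_⟩
    have h1 := PX_sq l
    have h2 := PX_pos l
    obtain ⟨t, ht⟩ := Nat.exists_eq_add_of_le h2
    rw [ht] at h1 ⊢
    have h3 : 1 + t - 1 = t := by omega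
    rw [h3]
    nlinarith
  have key : ∃ q, PY (l * m) = PY l * q ∧ q ≡ m [MOD (PX l - 1)] ∧
      PX (l * m) ≡ 1 [MOD (PX l - 1)] := by
    induction m with
    | zero => exact ⟨0, by simp, rfl, by simpa using Nat.ModEq.rfl⟩
    | succ m ih =>
      obtain ⟨q, h1, h2, h3⟩ := ih
      refine ⟨PX (l * m) + q * PX l, ?_, ?_, ?_⟩
      · rw [mul_add, mul_one, PY_add, h1]
        ring
      · have := h3.add (h2.mul hP)
        rw [mul_one, add_comm 1 m] at this
        exact this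
      · rw [mul_add, mul_one, PX_add, h1]
        have e : PX (l * m) * PX l + 3 * (PY l * q) * PY l =
            PX (l * m) * PX l + 3 * PY l ^ 2 * q := by ring
        rw [e]
        have := (h3.mul hP).add (hY.mul_right q)
        simpa using this
  obtain ⟨q, h1, h2, _⟩ := key
  exact ⟨q, h1, h2⟩

/-- division form (for `1 ≤ l`, `PY l > 0`) -/
theorem PY_div_mod (l m : ℕ) (hl : 1 ≤ l) (hm : m < PX l - 1) :
    (PY (l * m) / PY l) % (PX l - 1) = m := by
  obtain ⟨q, h1, h2⟩ := PY_quot l m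
  have h0 : 0 < PY l := by
    have := PY_strictMono (show 0 < l by omega)
    simpa using this
  rw [h1, Nat.mul_div_cancel_left _ h0]
  have h3 : q % (PX l - 1) = m % (PX l - 1) := h2
  rw [h3, Nat.mod_eq_of_lt hm]

end Crest.Agent.SF
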