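import Crest.Agent.SF.GraphDef
import Crest.Agent.SF.PellDiv

/-!
# Chunk R323-GRAPHB0
-/

set_option autoImplicit false

namespace Crest.Agent.SF

/-- `PX (16 k)` is obtained from `PX k` by four duplications `PX (2k) = 2 PX k ^2 - 1` -/
def T2 (x : ℕ) : ℕ := 2 * x ^ 2 - 1

theorem T2_PX (k : ℕ) : T2 (PX k) = PX (2 * k) := by
  have h1 := PX_add k k
  have h2 := PX_sq k
  have h3 : PX (2 * k) = PX k ^ 2 + 3 * PY k ^ 2 := by
    rw [two_mul, h1]; ring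
  unfold T2
  omega

theorem T16_PX (k : ℕ) : T2 (T2 (T2 (T2 (PX k)))) = PX (16 * k) := by
  rw [T2_PX, T2_PX, T2_PX, T2_PX]
  congr 1
  ring

/-- Given `l ≥ 300`, `Pin l n`, and a Pell index `m > 0` with `PY l * PY (l+1) ∣ PY m`,
`PX m ≤ PX (16 kp n)`: `l (l+1) ∣ m` (`PY_mul_succ_dvd_iff`), `m ≤ 16 kp n < 2 l (l+1)`
(`pin_window_upper`), so `m = l (l+1)`. -/
theorem pin_index {l n m : ℕ} (hl : 300 ≤ l) (h : Pin l n) (hm : 0 < m)
    (hd : PY l * PY (l + 1) ∣ PY m) (hle : PX m ≤ PX (16 * kp n)) : m = l * (l + 1) := by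
  have h1 := (PY_mul_succ_dvd_iff l m).1 hd
  have h2 : m ≤ 16 * kp n := PX_strictMono.le_iff_le.1 hle
  have h3 := pin_window_upper hl h
  obtain ⟨q, rfl⟩ := h1
  have hq0 : q ≠ 0 := by
    rintro rfl; simp at hm
  have hq2 : q < 2 := by
    by_contra hc
    push Not at hc
    have h4 : l * (l + 1) * 2 ≤ l * (l + 1) * q := Nat.mul_le_mul_left _ hc
    omega
  have hq : q = 1 := by omega
  rw [hq, mul_one]

/-- the system for the graph with witnesses `x, y, XX, YY` -/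
def SysG (l X Y x y XX YY : ℕ) : Prop :=
  RK X Y x y ∧ XX ^ 2 = 3 * YY ^ 2 + 1 ∧ 0 < YY ∧ Y * (X + 2 * Y) ∣ YY ∧
    XX ≤ T2 (T2 (T2 (T2 x))) ∧ (YY / Y) % (X - 1) = l + 1

private theorem lt_PX_aux {l : ℕ} (hl : 300 ≤ l) : l + 1 < PX l - 1 := by
  obtain ⟨k, rfl⟩ : ∃ k, l = k + 1 := ⟨l - 1, by omega⟩
  have h1 := PX_ge_pow (k + 1)
  have h2 : k < 2 ^ k := Nat.lt_two_pow_self
  rw [pow_succ] at h1
  omega

/-- (→) `RK` gives `l'`, `n`; `XX = PX m`, `YY = PY m` (`pell_all`), `m > 0`; `pin_index` gives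
`m = l'(l'+1)`; `PY_div_mod` with `m := l'+1 < PX l' - 1` (`PX_ge_pow`) gives `l + 1 = l' + 1`.
(←) `pin_window_lower`, `PY_mul_succ_dvd_iff`, `PY_succ`, `PY_div_mod`. -/
theorem sysG_iff (l X Y x y XX YY : ℕ) :
    SysG l X Y x y XX YY ↔ 300 ≤ l ∧ X = PX l ∧ Y = PY l ∧
      (∃ n, Pin l n ∧ x = PX (kp n) ∧ y = PY (kp n)) ∧
      XX = PX (l * (l + 1)) ∧ YY = PY (l * (l + 1)) := by
  constructor
  · rintro ⟨⟨l', n, hl', hpin, rfl, rfl, rfl, rfl⟩, h1, h2, h3, h4, h5⟩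
    obtain ⟨m, rfl, rfl⟩ := pell_all h1
    have hm : 0 < m := by
      rcases Nat.eq_zero_or_pos m with rfl | h
      · simp at h2
      · exact h
    rw [← PY_succ] at h3
    rw [T16_PX] at h4
    have h6 := pin_index hl' hpin hm h3 h4
    rw [h6, PY_div_mod l' (l' + 1) (by omega) (lt_PX_aux hl')] at h5
    have h7 : l = l' := by omega
    subst h7
    rw [h6]
    exact ⟨hl', rfl, rfl, ⟨n, hpin, rfl, rfl⟩, rfl, rfl⟩
  · rintro ⟨hl, rfl, rfl, ⟨n, hpin, rfl, rfl⟩, rfl, rfl⟩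
    refine ⟨⟨l, n, hl, hpin, rfl, rfl, rfl, rfl⟩, PX_sq _, ?_, ?_, ?_, ?_⟩
    · have h : PY 0 < PY (l * (l + 1)) := PY_strictMono (by positivity)
      simpa using h
    · rw [← PY_succ]
      exact (PY_mul_succ_dvd_iff l _).2 dvd_rfl
    · rw [T16_PX]
      exact PX_strictMono.monotone (pin_window_lower hl hpin)
    · exact PY_div_mod l (l + 1) (by omega) (lt_PX_aux hl)

end Crest.Agent.SF
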