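import Crest.Agent.SF.PellBase

/-!
# Chunk R323-PELLPOW: base change and powers
-/

set_option autoImplicit false

namespace Crest.Agent.SF

/-- `PX (K*n) = T_n (PX K)`. Simultaneous induction on `n` using the two-step recurrences
`Pell.xn_succ_succ`, `Pell.yn_succ_succ` for base `PX K`, and for the left sides
`PX (k + K) + PX (k - K) = 2 PX K PX k` (from `PX_add`, `PY_add`; e.g. write `k = K*(n+1)`). Or one-step
induction: `PX (K*(n+1)) = PX (K*n) PX K + 3 PY (K*n) PY K`, with `PY (K*n) = PY K * yn n`,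
`3 PY K^2 = PX K^2 - 1`, and in base `a = PX K`: `xn (n+1) = xn n * a + (a²-1) yn n`,
`yn (n+1) = xn n + yn n * a` (`Pell.xn_succ`; the private constant `d` is `a*a-1` by `Pell.pell_eq` at
`1`, see `dkey` in `PellBase`). -/
theorem PX_PY_mul (K n : ℕ) (hK : 1 < PX K) :
    PX (K * n) = Pell.xn hK n ∧ PY (K * n) = PY K * Pell.yn hK n := by
  have hd : ∃ d : ℕ, d = 3 * PY K ^ 2 ∧
      ∀ k, Pell.xn hK (k + 1) = Pell.xn hK k * PX K + d * Pell.yn hK k := by
    have h1 := Pell.pell_eq hK 1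
    rw [Pell.xn_one, Pell.yn_one] at h1
    have h2 := PX_sq K
    have h3 : PX K * PX K = 3 * PY K ^ 2 + 1 := by rw [← h2]; ring
    exact ⟨_, by omega, Pell.xn_succ hK⟩
  obtain ⟨d, hd, hx⟩ := hd
  induction n with
  | zero => simp
  | succ n ih =>
    obtain ⟨ih1, ih2⟩ := ih
    rw [Nat.mul_succ, PX_add, PY_add, hx n, Pell.yn_succ, ih1, ih2, hd]
    constructor <;> ring

/-- `a^n ≡ PX (K n) - (PX K - a) * (PY (K n) / PY K) mod (2 a PX K - a² - 1)`:
apply `Pell.x_sub_y_dvd_pow` in base `PX K` with `y = a` and `PX_PY_mul`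
(`Pell.xz`, `Pell.yz` are the casts of `xn`, `yn`). -/
theorem pow_congr (K n a : ℕ) (hK : 1 ≤ K) :
    ((2 * a * PX K - a * a - 1 : ℤ)) ∣
      (PX (K * n) : ℤ) - (PX K - a) * ((PY (K * n) / PY K : ℕ) : ℤ) - (a : ℤ) ^ n := by
  have hX : 1 < PX K := by
    have := PX_gt K
    omega
  have hY : 0 < PY K := by
    have := PY_strictMono (show 0 < K by omega)
    simpa using this
  obtain ⟨h1, h2⟩ := PX_PY_mul K n hX
  have h3 : PY (K * n) / PY K = Pell.yn hX n := by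
    rw [h2, Nat.mul_div_cancel_left _ hY]
  rw [h1, h3]
  have h4 := Pell.x_sub_y_dvd_pow hX a n
  have e1 : (2 * a * PX K - a * a - 1 : ℤ) = 2 * PX K * a - a * a - 1 := by ring
  rw [e1]
  have e2 : (Pell.xn hX n : ℤ) - (PX K - a) * ((Pell.yn hX n : ℕ) : ℤ) - (a : ℤ) ^ n =
      -(Pell.yz hX n * (PX K - a) + ((a ^ n : ℕ) : ℤ) - Pell.xz hX n) := by
    simp only [Pell.xz, Pell.yz, Nat.cast_pow]
    ring
  rw [e2]
  exact (dvd_neg).2 h4

/-- Natural number form: with `X = PX K`, `q = PY (K n) / PY K`, `M = 2 a X - a² - 1`: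
`a^n = (PX (K n) + a q + X q (M - 1)) % M` when `a^n < M` (note `X q (M-1) ≡ - X q mod M`). -/
theorem pow_mod_form (K n a : ℕ) (hK : 1 ≤ K) (h : a ^ n < 2 * a * PX K - a * a - 1) :
    a ^ n = (PX (K * n) + a * (PY (K * n) / PY K) +
      PX K * (PY (K * n) / PY K) * (2 * a * PX K - a * a - 1 - 1)) %
        (2 * a * PX K - a * a - 1) := by
  have h1 := pow_congr K n a hK
  generalize hM : 2 * a * PX K - a * a - 1 = M at *
  generalize hq : PY (K * n) / PY K = q at *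
  have hM1 : 1 ≤ M := by omega
  have hMz : (2 * a * PX K - a * a - 1 : ℤ) = (M : ℤ) := by
    have : 2 * a * PX K = M + a * a + 1 := by omega
    have h' : (2 * a * PX K : ℤ) = M + a * a + 1 := by exact_mod_cast this
    rw [h']; ring
  rw [hMz] at h1
  have h2 : a ^ n ≡ PX (K * n) + a * q + PX K * q * (M - 1) [MOD M] := by
    rw [Nat.modEq_iff_dvd]
    push_cast [Nat.cast_sub hM1]
    obtain ⟨c, hc⟩ := h1
    refine ⟨c + PX K * q, ?_⟩
    linear_combination hc
  have h3 : a ^ n % M = (PX (K * n) + a * q + PX K * q * (M - 1)) % M := h2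
  rw [← h3, Nat.mod_eq_of_lt h]

/-- for `1 ≤ a` and `K = a * n + a + 300`: `PX K ≥ 2^K` (`PX_ge_pow`), `a ^ n ≤ 2^(a n)`,
`a*a + 1 < 2^(a+300)`, hence `a^n < 2 a PX K - a² - 1`. -/
theorem pow_lt_modulus (a n : ℕ) (ha : 1 ≤ a) :
    a ^ n < 2 * a * PX (a * n + a + 300) - a * a - 1 := by
  have h1 := PX_ge_pow (a * n + a + 300)
  have ha2 : a < 2 ^ a := Nat.lt_two_pow_self
  have h2 : a ^ n ≤ 2 ^ (a * n) := by
    rw [pow_mul]
    exact Nat.pow_le_pow_left ha2.le n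
  have ha3 : ∀ b : ℕ, b * b + 2 ≤ 2 ^ (b + 2) := by
    intro b
    induction b with
    | zero => norm_num
    | succ b ih =>
      have : 2 ^ (b + 1 + 2) = 2 * 2 ^ (b + 2) := by ring
      rw [this]
      nlinarith [sq_nonneg ((b : ℤ) - 1), Nat.zero_le b, sq_nonneg (b : ℤ), Nat.le_mul_self b]
  have ha4 : a * a + 2 ≤ 2 ^ (a + 300) :=
    (ha3 a).trans (Nat.pow_le_pow_right (by norm_num) (by omega))
  have hX : 2 ^ (a * n + a + 300) ≤ a * PX (a * n + a + 300) := by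
    calc 2 ^ (a * n + a + 300) ≤ 1 * PX (a * n + a + 300) := by simpa using h1
      _ ≤ a * PX (a * n + a + 300) := Nat.mul_le_mul_right _ ha
  have hsplit : 2 ^ (a * n + a + 300) = 2 ^ (a * n) * 2 ^ (a + 300) := by
    rw [← pow_add]; ring_nf
  have p1 : 1 ≤ 2 ^ (a * n) := Nat.one_le_two_pow
  have p2 : 1 ≤ 2 ^ (a + 300) := Nat.one_le_two_pow
  generalize 2 ^ (a * n) = u at *
  generalize 2 ^ (a + 300) = v at *
  have h5 : u + v ≤ 2 * (u * v) := by nlinarith
  have h6 : 2 * a * PX (a * n + a + 300) = 2 * (a * PX (a * n + a + 300)) := by ring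
  rw [h6]
  omega

end Crest.Agent.SF
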