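import Crest.Agent.SF.Clos
import Crest.Agent.SF.PellPow

/-!
# Chunk R323-POWSF: exponentiation is single-fold, given the Pell graph
-/

set_option autoImplicit false

namespace Crest.Agent.SF

/-- the main case of `sff_pow_of_graph` as a relation between `z, a, n` -/
theorem sff_pow_main
    (hG : SFD (fun b : Fin 3 → ℕ => 300 ≤ b 0 ∧ b 1 = PX (b 0) ∧ b 2 = PY (b 0))) :
    SFD (fun b : Option (Fin 2) → ℕ => 0 < b (some 1) ∧ 0 < b (some 0) ∧
      b none = b (some 0) ^ b (some 1)) := by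
  have hex : SFD (fun b : Option (Fin 2) → ℕ => ∃ u : Fin 4 → ℕ,
      (300 ≤ b (some 0) * b (some 1) + b (some 0) + 300 ∧
        u 0 = PX (b (some 0) * b (some 1) + b (some 0) + 300) ∧
        u 1 = PY (b (some 0) * b (some 1) + b (some 0) + 300)) ∧
      (300 ≤ (b (some 0) * b (some 1) + b (some 0) + 300) * b (some 1) ∧
        u 2 = PX ((b (some 0) * b (some 1) + b (some 0) + 300) * b (some 1)) ∧
        u 3 = PY ((b (some 0) * b (some 1) + b (some 0) + 300) * b (some 1))) ∧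
      b none = (u 2 + b (some 0) * (u 3 / u 1) +
        u 0 * (u 3 / u 1) * (2 * b (some 0) * u 0 - b (some 0) * b (some 0) - 1 - 1)) %
          (2 * b (some 0) * u 0 - b (some 0) * b (some 0) - 1)) := by
    refine SFD.ex_fam (γ := Fin 4) (fun (b : Option (Fin 2) → ℕ) (u : Fin 4 → ℕ) =>
      (300 ≤ b (some 0) * b (some 1) + b (some 0) + 300 ∧
        u 0 = PX (b (some 0) * b (some 1) + b (some 0) + 300) ∧
        u 1 = PY (b (some 0) * b (some 1) + b (some 0) + 300)) ∧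
      (300 ≤ (b (some 0) * b (some 1) + b (some 0) + 300) * b (some 1) ∧
        u 2 = PX ((b (some 0) * b (some 1) + b (some 0) + 300) * b (some 1)) ∧
        u 3 = PY ((b (some 0) * b (some 1) + b (some 0) + 300) * b (some 1))) ∧
      b none = (u 2 + b (some 0) * (u 3 / u 1) +
        u 0 * (u 3 / u 1) * (2 * b (some 0) * u 0 - b (some 0) * b (some 0) - 1 - 1)) %
          (2 * b (some 0) * u 0 - b (some 0) * b (some 0) - 1)) ?_ ?_
    · have v : ∀ i : Option (Fin 2) ⊕ Fin 4,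
        SFF (fun b : Option (Fin 2) ⊕ Fin 4 → ℕ => b i) := fun i => SFF.var i
      have hK : SFF (fun b : Option (Fin 2) ⊕ Fin 4 → ℕ =>
          b (Sum.inl (some 0)) * b (Sum.inl (some 1)) + b (Sum.inl (some 0)) + 300) :=
        (((v _).mul (v _)).add (v _)).add (SFF.const 300)
      have h1 := SFD.subst₃ (R := fun x y z => 300 ≤ x ∧ y = PX x ∧ z = PY x) hG hK
        (v (Sum.inr 0)) (v (Sum.inr 1))
      have h2 := SFD.subst₃ (R := fun x y z => 300 ≤ x ∧ y = PX x ∧ z = PY x) hG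
        (hK.mul (v (Sum.inl (some 1)))) (v (Sum.inr 2)) (v (Sum.inr 3))
      have hM : SFF (fun b : Option (Fin 2) ⊕ Fin 4 → ℕ =>
          2 * b (Sum.inl (some 0)) * b (Sum.inr 0) -
            b (Sum.inl (some 0)) * b (Sum.inl (some 0)) - 1) :=
        ((((SFF.const 2).mul (v _)).mul (v _)).sub ((v _).mul (v _))).sub (SFF.const 1)
      have hq : SFF (fun b : Option (Fin 2) ⊕ Fin 4 → ℕ => b (Sum.inr 3) / b (Sum.inr 1)) :=
        (v _).div (v _)
      have h3 := SFD.eq (v (Sum.inl none))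
        ((((v (Sum.inr 2)).add ((v (Sum.inl (some 0))).mul hq)).add
          (((v (Sum.inr 0)).mul hq).mul (hM.sub (SFF.const 1)))).mod hM)
      exact h1.and (h2.and h3)
    · rintro b u v ⟨⟨_, h1, h2⟩, ⟨_, h3, h4⟩, _⟩ ⟨⟨_, h1', h2'⟩, ⟨_, h3', h4'⟩, _⟩
      funext i
      fin_cases i
      · exact h1.trans h1'.symm
      · exact h2.trans h2'.symm
      · exact h3.trans h3'.symm
      · exact h4.trans h4'.symm
  have h0 : SFD (fun b : Option (Fin 2) → ℕ => 0 < b (some 1) ∧ 0 < b (some 0)) :=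
    (SFD.pos (SFF.var _)).and (SFD.pos (SFF.var _))
  refine (h0.and hex).congr fun b => ?_
  constructor
  · rintro ⟨hn, ha, hz⟩
    have hlt := pow_lt_modulus (b (some 0)) (b (some 1)) ha
    refine ⟨⟨hn, ha⟩, ?_⟩
    have hK300 : 300 ≤ b (some 0) * b (some 1) + b (some 0) + 300 := Nat.le_add_left _ _
    generalize b (some 0) * b (some 1) + b (some 0) + 300 = K at hlt hK300 ⊢
    have hf := pow_mod_form K (b (some 1)) (b (some 0)) (by omega) hlt
    refine ⟨![PX K, PY K, PX (K * b (some 1)), PY (K * b (some 1))],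
      ⟨hK300, rfl, rfl⟩, ⟨?_, rfl, rfl⟩, ?_⟩
    · have : K * 1 ≤ K * b (some 1) := Nat.mul_le_mul_left _ hn
      omega
    · rw [hz, hf]
      rfl
  · rintro ⟨⟨hn, ha⟩, u, ⟨_, h1, h2⟩, ⟨_, h3, h4⟩, h5⟩
    refine ⟨hn, ha, ?_⟩
    have hlt := pow_lt_modulus (b (some 0)) (b (some 1)) ha
    have hK300 : 300 ≤ b (some 0) * b (some 1) + b (some 0) + 300 := Nat.le_add_left _ _
    generalize b (some 0) * b (some 1) + b (some 0) + 300 = K at hlt hK300 h1 h2 h3 h4
    have hf := pow_mod_form K (b (some 1)) (b (some 0)) (by omega) hlt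
    rw [h5, h1, h2, h3, h4]
    exact hf.symm

/-- Proof. For `a ≥ 1` and `n ≥ 1` put `K = a*n + a + 300`. Then `z = a^n` iff there are
`X, Y, XX, YY` with `PG(K, X, Y)`, `PG(K n, XX, YY)` (PG = the relation in the hypothesis
`300 ≤ l ∧ X = PX l ∧ Y = PY l`; `K n ≥ 300` as `n ≥ 1`) and
`z = (XX + a (YY/Y) + X (YY/Y) (M-1)) % M`, `M = 2 a X - a a - 1` (`pow_mod_form`,
`pow_lt_modulus`); the four witnesses are unique (they are `PX K, PY K, PX (K n), PY (K n)`).
The last equation is a relation between SF functions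
(`SFF.add, .mul, .sub, .div, .mod`, natural subtraction). Use `SFD.ex_fam` with `γ = Fin 4` or four
times `SFD.ex`. The cases `n = 0` (value `1`), `a = 0, n ≥ 1` (value `0`) are added as disjoint
alternatives (`SFD.or`) : graph = (n = 0 ∧ z = 1) ∨ (0 < n ∧ a = 0 ∧ z = 0) ∨ (0 < n ∧ 0 < a ∧ ...). -/
theorem sff_pow_of_graph
    (hG : SFD (fun b : Fin 3 → ℕ => 300 ≤ b 0 ∧ b 1 = PX (b 0) ∧ b 2 = PY (b 0))) :
    SFF (fun b : Fin 2 → ℕ => b 0 ^ b 1) := by
  have h1 : SFD (fun b : Option (Fin 2) → ℕ => b (some 1) = 0 ∧ b none = 1) :=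
    (SFD.eq (SFF.var _) (SFF.const 0)).and (SFD.eq (SFF.var _) (SFF.const 1))
  have h2 : SFD (fun b : Option (Fin 2) → ℕ => 0 < b (some 1) ∧ b (some 0) = 0 ∧ b none = 0) :=
    (SFD.pos (SFF.var _)).and ((SFD.eq (SFF.var _) (SFF.const 0)).and
      (SFD.eq (SFF.var _) (SFF.const 0)))
  have h3 := sff_pow_main hG
  refine SFF.of_graph (h1.or (h2.or h3 ?_) ?_) fun b => ?_
  · rintro a ⟨_, h, _⟩ ⟨_, h', _⟩
    omega
  · rintro a ⟨h, _⟩ (⟨h', _⟩ | ⟨h', _⟩) <;> omega
  · rcases Nat.eq_zero_or_pos (b (some 1)) with hn | hn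
    · simp [hn]
    · rcases Nat.eq_zero_or_pos (b (some 0)) with ha | ha
      · simp [hn, ha, hn.ne']
      · simp [hn, ha, hn.ne', ha.ne']

end Crest.Agent.SF
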