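import Crest.Agent.SF.GraphA
import Crest.Agent.SF.GraphB0
import Crest.Agent.SF.PowSF

/-!
# Chunk R323-GRAPHB: the Pell graph `{(l, PX l, PY l) : l ≥ 300}` is single-fold
-/

set_option autoImplicit false

namespace Crest.Agent.SF

theorem SFF.T2 {α : Type} {f : (α → ℕ) → ℕ} (hf : SFF f) : SFF (fun a => T2 (f a)) := by
  unfold Crest.Agent.SF.T2
  exact ((SFF.const 2).mul (hf.npow 2)).sub (SFF.const 1)

/-- the body of `SysG` as an SFD relation in all seven variables -/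
theorem sfd_SysG : SFD (fun b : Fin 3 ⊕ Fin 4 → ℕ =>
    SysG (b (Sum.inl 0)) (b (Sum.inl 1)) (b (Sum.inl 2))
      (b (Sum.inr 0)) (b (Sum.inr 1)) (b (Sum.inr 2)) (b (Sum.inr 3))) := by
  unfold SysG
  have v : ∀ i : Fin 3 ⊕ Fin 4, SFF (fun b : Fin 3 ⊕ Fin 4 → ℕ => b i) := fun i => SFF.var i
  refine (SFD.subst₄ (R := RK) sfd_RK (v _) (v _) (v _) (v _)).and ?_
  refine (SFD.eq ((v _).npow 2) (((SFF.const 3).mul ((v _).npow 2)).add (SFF.const 1))).and ?_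
  refine (SFD.pos (v _)).and ?_
  refine (SFD.dvd ((v _).mul ((v _).add ((SFF.const 2).mul (v _)))) (v _)).and ?_
  refine (SFD.le (v _) (SFF.T2 (SFF.T2 (SFF.T2 (SFF.T2 (v _)))))).and ?_
  exact SFD.eq (((v _).div (v _)).mod ((v _).sub (SFF.const 1))) ((v _).add (SFF.const 1))

/-- `SFD.ex_fam` with `γ = Fin 4`, `sysG_iff`, `pin_exists_unique`. -/
theorem sfd_pell_graph :
    SFD (fun b : Fin 3 → ℕ => 300 ≤ b 0 ∧ b 1 = PX (b 0) ∧ b 2 = PY (b 0)) := by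
  have h := SFD.ex_fam (α := Fin 3) (γ := Fin 4)
    (fun a u => SysG (a 0) (a 1) (a 2) (u 0) (u 1) (u 2) (u 3)) sfd_SysG ?_
  · refine h.congr fun b => ⟨?_, ?_⟩
    · rintro ⟨h1, h2, h3⟩
      obtain ⟨n, hn, -⟩ := pin_exists_unique (b 0) h1
      exact ⟨![PX (kp n), PY (kp n), PX (b 0 * (b 0 + 1)), PY (b 0 * (b 0 + 1))],
        (sysG_iff _ _ _ _ _ _ _).2 ⟨h1, h2, h3, ⟨n, hn, rfl, rfl⟩, rfl, rfl⟩⟩
    · rintro ⟨u, hu⟩
      obtain ⟨h1, h2, h3, -⟩ := (sysG_iff _ _ _ _ _ _ _).1 hu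
      exact ⟨h1, h2, h3⟩
  · intro a u w h1 h2
    obtain ⟨g1, -, -, ⟨n, p1, p2, p3⟩, p4, p5⟩ := (sysG_iff _ _ _ _ _ _ _).1 h1
    obtain ⟨-, -, -, ⟨m, q1, q2, q3⟩, q4, q5⟩ := (sysG_iff _ _ _ _ _ _ _).1 h2
    obtain rfl : n = m := (pin_exists_unique _ g1).unique p1 q1
    funext i
    fin_cases i
    · exact p2.trans q2.symm
    · exact p3.trans q3.symm
    · exact p4.trans q4.symm
    · exact p5.trans q5.symm

/-- MAIN RESULT OF PART II: exponentiation is single-fold Diophantine -/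
theorem sff_pow : SFF (fun b : Fin 2 → ℕ => b 0 ^ b 1) := sff_pow_of_graph sfd_pell_graph

end Crest.Agent.SF
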