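import Crest.Agent.SF.PinA

/-!
# Chunk R323-PINB: pinning
-/

set_option autoImplicit false

namespace Crest.Agent.SF

/-- `kp (n+1) - kp n ≤ l < kp (n+2) - kp (n+1)` -/
def Pin (l n : ℕ) : Prop := 1 ≤ n ∧ kp (n + 1) ≤ l + kp n ∧ l + kp (n + 1) < kp (n + 2)

theorem PinB_T_step (n m : ℕ) (h : n < m) :
    kp (n + 2) + kp m ≤ kp (m + 1) + kp (n + 1) := by
  induction m with
  | zero => omega
  | succ m ih =>
    rcases Nat.lt_or_ge n m with h1 | h1
    · have h2 := ih h1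
      have h3 := kp_convex m
      rw [show m + 1 + 1 = m + 2 from rfl]
      omega
    · have e : m = n := by omega
      subst e
      exact le_rfl

theorem PinB_T_ge (n : ℕ) : kp n + 4 * n ≤ kp (n + 1) := by
  induction n with
  | zero =>
    have h0 := kp_lt 0
    have h1 := kp_lt 1
    have h := FF_one
    have h2 : (kp 0 : ℝ) < kp 1 := by
      have := h.1
      linarith [h0.1, h1.2]
    have h3 : kp 0 < kp 1 := by exact_mod_cast h2
    simpa using h3.le
  | succ n ih =>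
    have h3 := kp_convex n
    rw [show n + 1 + 1 = n + 2 from rfl]
    omega

/-- Uniqueness: `t n = kp (n+1) - kp n` (in `ℤ`) satisfies `t (n+1) ≥ t n + 4` (`kp_convex`), so it is
strictly increasing; `t n ≤ l < t (n+1)` and `t n' ≤ l < t (n'+1)` give `n = n'`.
Existence: `t 1 < F 2 - F 1 + 1 ≤ 2.84 + 6.2 + 1 < 300 ≤ l` (`kp_lt`, `FF_diff_upper`) and `t n → ∞`
(`t n ≥ t 1 + 4 (n-1)`, `t 1 ≥ 0`), take the largest `n` with `t n ≤ l` (`Nat.findGreatest` or
`Nat.find` on `l < t (n+1)`). -/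
theorem pin_exists_unique (l : ℕ) (hl : 300 ≤ l) : ∃! n, Pin l n := by
  have key : ∀ n m : ℕ, n < m → Pin l n → Pin l m → False := by
    intro n m hnm h1 h2
    have h3 := PinB_T_step n m hnm
    have h4 := h1.2.2
    have h5 := h2.2.1
    omega
  have hex : ∃ n, l + kp (n + 1) < kp (n + 2) := by
    refine ⟨l, ?_⟩
    have := PinB_T_ge (l + 1)
    rw [show l + 1 + 1 = l + 2 from rfl] at this
    omega
  classical
  have hf := Nat.find_spec hex
  set n := Nat.find hex with hn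
  have hn1 : 1 ≤ n := by
    by_contra hcon
    have e : n = 0 := by omega
    rw [e] at hf
    have h1 := kp_lt 1
    have h2 := kp_lt 2
    have h3 := FF_diff_upper 1
    have h4 : (l : ℝ) + kp 1 < kp 2 := by exact_mod_cast hf
    have h5 : (300 : ℝ) ≤ l := by exact_mod_cast hl
    norm_num at h3
    linarith [h1.1, h1.2, h2.1, h2.2]
  have hp : Pin l n := by
    refine ⟨hn1, ?_, hf⟩
    have h1 := Nat.find_min hex (m := n - 1) (by omega)
    rw [not_lt] at h1
    rw [show n - 1 + 1 = n by omega, show n - 1 + 2 = n + 1 by omega] at h1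
    exact h1
  refine ⟨n, hp, fun m hm => ?_⟩
  rcases lt_trichotomy m n with h | h | h
  · exact (key m n h hm hp).elim
  · exact h
  · exact (key n m h hp hm).elim

/-- From `l < t (n+1) < F(n+2) - F(n+1) + 1 ≤ 2.84 + 6.2 (n+1) + 1 = 10.04 + 6.2 n` and `l ≥ 300`:
`n ≥ 46`. Then `16 kp n > 16 (F n - 1) ≥ 16 (2.8 n + 2.65 n (n-1) - 1) = 42.4 n² + 2.4 n - 16`
and `l (l+1) ≤ (10.04 + 6.2 n)(11.04 + 6.2 n) = 38.44 n² + 130.7 n + 110.9`; the difference is
`≥ 3.96 n² - 128.3 n - 127 > 0` for `n ≥ 40`. -/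
theorem pin_window_lower {l n : ℕ} (hl : 300 ≤ l) (h : Pin l n) : l * (l + 1) ≤ 16 * kp n := by
  have h1 := kp_lt (n + 1)
  have h2 := kp_lt (n + 2)
  have h0 := kp_lt n
  have h3 := FF_diff_upper (n + 1)
  have hv := FF_val_lower n
  have h4 : (l : ℝ) + kp (n + 1) < kp (n + 2) := by exact_mod_cast h.2.2
  have h5 : (300 : ℝ) ≤ l := by exact_mod_cast hl
  push_cast at h3
  rw [show n + 1 + 1 = n + 2 from rfl] at h3
  have h6 : (l : ℝ) < 251 / 25 + 31 / 5 * n := by linarith [h1.1, h1.2, h2.1, h2.2]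
  have h7 : (46 : ℝ) ≤ n := by linarith
  have h8 : (l : ℝ) * (l + 1) ≤ 16 * kp n := by nlinarith [h0.1, h0.2]
  exact_mod_cast h8

/-- `l ≥ t n > F(n+1) - F n - 1 ≥ 1.8 + 5.3 n`, so `2 l (l+1) > 2 (5.3 n + 1.8)²
= 56.18 n² + 38.16 n + 6.48`; `16 kp n < 16 F n ≤ 16 (1 + 2.84 n + 3.1 n(n-1)) = 49.6 n² - 4.16 n + 16`,
`n ≥ 1`. -/
theorem pin_window_upper {l n : ℕ} (hl : 300 ≤ l) (h : Pin l n) :
    16 * kp n < 2 * (l * (l + 1)) := by
  have h1 := kp_lt (n + 1)
  have h0 := kp_lt n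
  have h3 := FF_diff_lower n
  have hv := FF_val_upper n
  have h4 : (kp (n + 1) : ℝ) ≤ l + kp n := by exact_mod_cast h.2.1
  have h5 : (1 : ℝ) ≤ n := by exact_mod_cast h.1
  have h6 : (9 / 5 : ℝ) + 53 / 10 * n < l := by linarith [h1.1, h1.2, h0.1, h0.2]
  have h8 : (16 : ℝ) * kp n < 2 * (l * (l + 1)) := by nlinarith [h0.1, h0.2]
  exact_mod_cast h8

end Crest.Agent.SF
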