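import Crest.Agent.SF.Clos
import Crest.Agent.SF.DescC
import Crest.Agent.SF.PinB

/-!
# Row 323: definitions for the Pell graph
-/

set_option autoImplicit false

namespace Crest.Agent.SF

/-- solutions of the curve equations, `|nP1|` for `n ≥ 1` -/
def IsQ (D u v w : ℕ) : Prop :=
  0 < D ∧ u ^ 2 + 5 * D ^ 2 = v ^ 2 ∧ v ^ 2 + 5 * D ^ 2 = w ^ 2 ∧ Nat.Coprime D v

theorem isQ_iff (D u v w : ℕ) :
    IsQ D u v w ↔ ∃ n, 1 ≤ n ∧ D = VD n ∧ u = Vu n ∧ v = VV n ∧ w = Vw n := by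
  constructor
  · rintro ⟨h1, h2, h3, h4⟩
    exact all_solutions h1 h2 h3 h4
  · rintro ⟨n, hn, rfl, rfl, rfl, rfl⟩
    obtain ⟨h1, h2, h3⟩ := V_eqs n
    exact ⟨VD_pos n hn, h1, h2, h3⟩

/-- size relation: `x, y` is the Pell solution with `x ≤ v < next x` -/
def SZ (v x y : ℕ) : Prop := x ^ 2 = 3 * y ^ 2 + 1 ∧ x ≤ v ∧ v < 2 * x + 3 * y

theorem SZ_iff (v x y : ℕ) (hv : 1 ≤ v) : SZ v x y ↔ x = PX (kap v) ∧ y = PY (kap v) := by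
  constructor
  · rintro ⟨h1, h2, h3⟩
    obtain ⟨k, rfl, rfl⟩ := pell_all h1
    rw [← PX_succ] at h3
    rw [← kap_unique h2 h3]
    exact ⟨rfl, rfl⟩
  · rintro ⟨rfl, rfl⟩
    obtain ⟨h1, h2⟩ := kap_spec hv
    rw [PX_succ] at h2
    exact ⟨PX_sq _, h1, h2⟩

/-- `(X, Y) = (PX l, PY l)` and `(x, y) = (PX (kp n), PY (kp n))` for the `n` pinned by `l ≥ 300` -/
def RK (X Y x y : ℕ) : Prop :=
  ∃ l n, 300 ≤ l ∧ Pin l n ∧ X = PX l ∧ Y = PY l ∧ x = PX (kp n) ∧ y = PY (kp n)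

/-- the system defining `RK`, with witnesses `Q, Q', Q'', (x1,y1), (x2,y2)` -/
def SysRK (X Y x y D u v w D' u' v' w' D'' u'' v'' w'' x1 y1 x2 y2 : ℕ) : Prop :=
  IsQ D u v w ∧ Nb D u v w D' u' v' w' ∧ Nb D' u' v' w' D'' u'' v'' w'' ∧
  X ^ 2 = 3 * Y ^ 2 + 1 ∧ PX 300 ≤ X ∧ SZ v x y ∧ SZ v' x1 y1 ∧ SZ v'' x2 y2 ∧
  x1 ≤ X * x + 3 * Y * y ∧ X * x1 + 3 * Y * y1 < x2

end Crest.Agent.SF
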