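import Mathlib

/-!
# Row 323: Pell numbers `x² = 3y² + 1`
-/

set_option autoImplicit false

namespace Crest.Agent.SF

theorem olt : 1 < 2 := by norm_num

/-- `x`-coordinates of the solutions of `x² = 3y² + 1` -/
def PX (k : ℕ) : ℕ := Pell.xn olt k

/-- `y`-coordinates of the solutions of `x² = 3y² + 1` -/
def PY (k : ℕ) : ℕ := Pell.yn olt k

@[simp] theorem PX_zero : PX 0 = 1 := rfl
@[simp] theorem PY_zero : PY 0 = 0 := rfl

theorem dkey : ∃ d : ℕ, d = 3 ∧ (∀ k, Pell.xn olt (k + 1) = Pell.xn olt k * 2 + d * Pell.yn olt k) ∧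
    (∀ {x y : ℕ}, x * x - d * y * y = 1 → ∃ n, x = Pell.xn olt n ∧ y = Pell.yn olt n) := by
  have h1 := Pell.pell_eq olt 1
  rw [Pell.xn_one, Pell.yn_one] at h1
  exact ⟨_, by omega, Pell.xn_succ olt, fun h => Pell.eq_pell olt h⟩

theorem PX_succ (k : ℕ) : PX (k + 1) = 2 * PX k + 3 * PY k := by
  obtain ⟨d, rfl, h, _⟩ := dkey
  have := h k
  unfold PX PY
  omega

theorem PY_succ (k : ℕ) : PY (k + 1) = PX k + 2 * PY k := by
  have h := Pell.yn_succ olt k
  unfold PX PY
  omega

theorem PX_sq (k : ℕ) : PX k ^ 2 = 3 * PY k ^ 2 + 1 := by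
  induction k with
  | zero => simp
  | succ k ih => rw [PX_succ, PY_succ]; nlinarith

theorem PX_add (m n : ℕ) : PX (m + n) = PX m * PX n + 3 * PY m * PY n := by
  induction n with
  | zero => simp
  | succ n ih =>
    have := PY_succ (m + n)
    rw [← add_assoc, PX_succ, ih, PX_succ n, PY_succ n]
    have h2 : ∀ m n, PY (m + n) = PX m * PY n + PY m * PX n := by
      intro m n
      induction n with
      | zero => simp
      | succ n ih =>
        have h := Pell.yn_add olt m (n + 1)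
        unfold PY PX
        exact h
    rw [h2]; ring

theorem PY_add (m n : ℕ) : PY (m + n) = PX m * PY n + PY m * PX n := Pell.yn_add olt m n

theorem PX_strictMono : StrictMono PX := Pell.strictMono_x olt

theorem PY_strictMono : StrictMono PY := Pell.strictMono_y olt

theorem PX_pos (k : ℕ) : 1 ≤ PX k := by
  have := PX_strictMono.monotone (Nat.zero_le k)
  simpa using this

theorem PX_gt (k : ℕ) : k < PX k := Pell.n_lt_xn olt k

theorem PX_ge_pow (k : ℕ) : 2 ^ k ≤ PX k := Pell.xn_ge_a_pow olt k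

theorem pell_all {x y : ℕ} (h : x ^ 2 = 3 * y ^ 2 + 1) : ∃ k, x = PX k ∧ y = PY k := by
  obtain ⟨d, rfl, _, h'⟩ := dkey
  apply h'
  have e1 : x * x = 3 * y * y + 1 := by nlinarith
  omega

theorem PY_dvd_iff (m n : ℕ) : PY m ∣ PY n ↔ m ∣ n := Pell.y_dvd_iff olt m n

theorem PXY_coprime (k : ℕ) : Nat.Coprime (PX k) (PY k) := Pell.xy_coprime olt k

/-- the Pell index of the size of a natural number -/
def kap (v : ℕ) : ℕ := Nat.findGreatest (fun k => PX k ≤ v) v

theorem kap_spec {v : ℕ} (hv : 1 ≤ v) : PX (kap v) ≤ v ∧ v < PX (kap v + 1) := by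
  have h0 : PX 0 ≤ v := by simpa using hv
  constructor
  · exact Nat.findGreatest_spec (P := fun k => PX k ≤ v) (Nat.zero_le v) h0
  · by_contra hc
    push Not at hc
    have hle : kap v + 1 ≤ v := by
      have := PX_gt (kap v + 1)
      omega
    have := Nat.le_findGreatest (P := fun k => PX k ≤ v) hle hc
    unfold kap at *
    omega

theorem kap_unique {v k : ℕ} (h1 : PX k ≤ v) (h2 : v < PX (k + 1)) : k = kap v := by
  have hv : 1 ≤ v := (PX_pos k).trans h1
  obtain ⟨h3, h4⟩ := kap_spec hv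
  have a1 : k < kap v + 1 := PX_strictMono.lt_iff_lt.1 (h1.trans_lt h4)
  have a2 : kap v < k + 1 := PX_strictMono.lt_iff_lt.1 (h3.trans_lt h2)
  omega

end Crest.Agent.SF
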