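import Crest.Agent.SF.PellSize

/-!
# Chunk R323-PELLNUM
-/

set_option autoImplicit false

namespace Crest.Agent.SF

private theorem PellNum_step {m n x y x' y' : ℕ} (h : PX m = x ∧ PY m = y)
    (h' : PX n = x' ∧ PY n = y') :
    PX (m + n) = x * x' + 3 * y * y' ∧ PY (m + n) = x * y' + y * x' := by
  rw [PX_add, PY_add, h.1, h.2, h'.1, h'.2]
  exact ⟨rfl, rfl⟩

private theorem PellNum_1 : PX 1 = 2 ∧ PY 1 = 1 := by
  have h1 := PX_succ 0
  have h2 := PY_succ 0
  simp at h1 h2
  exact ⟨h1, h2⟩

private theorem PellNum_2 : PX 2 = 7 ∧ PY 2 = 4 := by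
  have h := PellNum_step PellNum_1 PellNum_1
  norm_num at h
  exact h

private theorem PellNum_3 : PX 3 = 26 ∧ PY 3 = 15 := by
  have h := PellNum_step PellNum_2 PellNum_1
  norm_num at h
  exact h

private theorem PellNum_6 : PX 6 = 1351 ∧ PY 6 = 780 := by
  have h := PellNum_step PellNum_3 PellNum_3
  norm_num at h
  exact h

private theorem PellNum_12 : PX 12 = 3650401 ∧ PY 12 = 2107560 := by
  have h := PellNum_step PellNum_6 PellNum_6
  norm_num at h
  exact h

private theorem PellNum_13 : PX 13 = 13623482 ∧ PY 13 = 7865521 := by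
  have h := PellNum_step PellNum_12 PellNum_1
  norm_num at h
  exact h

private theorem PellNum_26 : PX 26 = 371198523608647 ∧ PY 26 = 214311567528244 := by
  have h := PellNum_step PellNum_13 PellNum_13
  norm_num at h
  exact h

private theorem PellNum_52 : PX 52 = 275576687858478528454426341217 ∧ PY 52 = 159104274917478052449950251736 := by
  have h := PellNum_step PellNum_26 PellNum_26
  norm_num at h
  exact h

private theorem PellNum_53 : PX 53 = 1028466200469391214258703437642 ∧ PY 53 = 593785237693434633354326844689 := by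
  have h := PellNum_step PellNum_52 PellNum_1
  norm_num at h
  exact h

private theorem PellNum_7 : PX 7 = 5042 ∧ PY 7 = 2911 := by
  have h := PellNum_step PellNum_6 PellNum_1
  norm_num at h
  exact h

private theorem PellNum_14 : PX 14 = 50843527 ∧ PY 14 = 29354524 := by
  have h := PellNum_step PellNum_7 PellNum_7
  norm_num at h
  exact h

private theorem PellNum_15 : PX 15 = 189750626 ∧ PY 15 = 109552575 := by
  have h := PellNum_step PellNum_14 PellNum_1
  norm_num at h
  exact h

private theorem PellNum_30 : PX 30 = 72010600134783751 ∧ PY 30 = 41575339372323900 := by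
  have h := PellNum_step PellNum_15 PellNum_15
  norm_num at h
  exact h

private theorem PellNum_31 : PX 31 = 268747218386539202 ∧ PY 31 = 155161278879431551 := by
  have h := PellNum_step PellNum_30 PellNum_1
  norm_num at h
  exact h

private theorem PellNum_4 : PX 4 = 97 ∧ PY 4 = 56 := by
  have h := PellNum_step PellNum_2 PellNum_2
  norm_num at h
  exact h

private theorem PellNum_8 : PX 8 = 18817 ∧ PY 8 = 10864 := by
  have h := PellNum_step PellNum_4 PellNum_4
  norm_num at h
  exact h

private theorem PellNum_16 : PX 16 = 708158977 ∧ PY 16 = 408855776 := by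
  have h := PellNum_step PellNum_8 PellNum_8
  norm_num at h
  exact h

private theorem PellNum_17 : PX 17 = 2642885282 ∧ PY 17 = 1525870529 := by
  have h := PellNum_step PellNum_16 PellNum_1
  norm_num at h
  exact h

private theorem PellNum_34 : PX 34 = 13969685227624439047 ∧ PY 34 = 8065401526663308356 := by
  have h := PellNum_step PellNum_17 PellNum_17
  norm_num at h
  exact h

private theorem PellNum_35 : PX 35 = 52135575035238803162 ∧ PY 35 = 30100488280951055759 := by
  have h := PellNum_step PellNum_34 PellNum_1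
  norm_num at h
  exact h

private theorem PellNum_70 : PX 70 = 5436236368510031063134299096580362396487 ∧ PY 70 = 3138612530737700040930096866094975019916 := by
  have h := PellNum_step PellNum_35 PellNum_35
  norm_num at h
  exact h

private theorem PellNum_71 : PX 71 = 20288310329233162249058888791445649852722 ∧ PY 71 = 11713461429985431144994492828770312436319 := by
  have h := PellNum_step PellNum_70 PellNum_1
  norm_num at h
  exact h


private theorem PellNum_up {k v : ℕ} (h : PX k ≤ v) : k * Real.log lam ≤ Real.log (2 * (v : ℝ)) := by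
  rw [← Real.log_pow]
  have h0 : 0 < lam := lt_trans one_pos lam_gt_one
  exact Real.log_le_log (by positivity) (lam_pow_lt h).le

private theorem PellNum_lo {k v : ℕ} (h : v < PX k) (hv : 0 < v) :
    Real.log (2 * (v : ℝ)) ≤ k * Real.log lam := by
  rw [← Real.log_pow]
  have h0 : (0 : ℝ) < v := by exact_mod_cast hv
  exact Real.log_le_log (by positivity) (lt_lam_pow h).le

/-- Numerical bounds, via `lam^k < 2 PX k` and `lam^k > 2 PX k - 1` (from `two_PX`) and the integer
inequalities (use `Real.log_le_log`, `Real.log_pow`; compute `PX` by `PX_succ`/`PY_succ`,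
`decide`/`norm_num`, or `PX_add`-doubling; `PX 53`, `PX 31`, `PX 14`, `PX 71` are explicit numbers):
* `lam^53 ≤ 41^20/32`,  i.e. `53 log lam ≤ 20 log 41 - 5 log 2`
  (numerically 69.80 ≤ 70.81);
* `(2·41²)^5 ≤ lam^31`, i.e. `10 log 41 + 5 log 2 ≤ 31 log lam` (40.602 ≤ 40.826);
* `lam^14 ≤ 41^5` (18.437 ≤ 18.568);
* `41^25 ≤ lam^71` (92.84 ≤ 93.50);
* `2 ≤ lam`. -/
theorem num1 : 53 * Real.log lam ≤ 20 * Real.log 41 - 5 * Real.log 2 := by
  have h := PellNum_up (k := 53) PellNum_53.1.le
  have e : 20 * Real.log 41 - 5 * Real.log 2 = Real.log ((41 : ℝ) ^ 20 / 2 ^ 5) := by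
    rw [Real.log_div (by positivity) (by positivity), Real.log_pow, Real.log_pow]
    push_cast
    ring
  rw [e]
  push_cast at h
  refine h.trans (Real.log_le_log (by norm_num) ?_)
  norm_num

theorem num2 : 10 * Real.log 41 + 5 * Real.log 2 ≤ 31 * Real.log lam := by
  have e : 10 * Real.log 41 + 5 * Real.log 2 = Real.log ((41 : ℝ) ^ 10 * 2 ^ 5) := by
    rw [Real.log_mul (by positivity) (by positivity), Real.log_pow, Real.log_pow]
    push_cast
    ring
  have h := PellNum_lo (k := 31) (v := 41 ^ 10 * 2 ^ 4) (by rw [PellNum_31.1]; norm_num)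
    (by norm_num)
  rw [e]
  push_cast at h
  refine le_trans (le_of_eq ?_) h
  congr 1
  ring

theorem num3 : 14 * Real.log lam ≤ 5 * Real.log 41 := by
  have h := PellNum_up (k := 14) PellNum_14.1.le
  have e : 5 * Real.log 41 = Real.log ((41 : ℝ) ^ 5) := by
    rw [Real.log_pow]
    push_cast
    ring
  rw [e]
  push_cast at h
  refine h.trans (Real.log_le_log (by norm_num) ?_)
  norm_num

theorem num4 : 25 * Real.log 41 ≤ 71 * Real.log lam := by
  have e : 25 * Real.log 41 = Real.log ((41 : ℝ) ^ 25) := by
    rw [Real.log_pow]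
    push_cast
    ring
  have h := PellNum_lo (k := 71) (v := 10436777437961738724554927977341321840501) (by rw [PellNum_71.1]; norm_num)
    (by norm_num)
  rw [e]
  push_cast at h
  refine le_trans (Real.log_le_log (by positivity) ?_) h
  norm_num

theorem num5 : 0 < Real.log 2 ∧ Real.log 2 ≤ Real.log lam := by
  refine ⟨Real.log_pos (by norm_num), Real.log_le_log (by norm_num) ?_⟩
  unfold lam
  have := Real.sqrt_nonneg 3
  linarith

end Crest.Agent.SF
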