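import Crest.Agent.SF.PellBase

/-!
# Chunk R323-PELLSIZE: sizes of Pell numbers

`lam = 2 + √3`, `lam⁻¹ = 2 - √3`, `PX k + PY k √3 = lam^k`, `PX k - PY k √3 = lam^(-k)`
(induction on `k` with `PX_succ`, `PY_succ`), so `2 PX k = lam^k + (lam^k)⁻¹`.
-/

set_option autoImplicit false

namespace Crest.Agent.SF

/-- `2 + √3` -/
noncomputable def lam : ℝ := 2 + Real.sqrt 3

theorem lam_gt_one : 1 < lam := by
  unfold lam
  have := Real.sqrt_nonneg 3
  linarith

private theorem PellSize_pow (k : ℕ) : (PX k : ℝ) + PY k * Real.sqrt 3 = lam ^ k := by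
  have h3 : Real.sqrt 3 * Real.sqrt 3 = 3 := Real.mul_self_sqrt (by norm_num)
  induction k with
  | zero => simp
  | succ k ih =>
    rw [pow_succ, ← ih, PX_succ, PY_succ]
    unfold lam
    push_cast
    linear_combination (-(PY k : ℝ)) * h3

private theorem PellSize_inv (k : ℕ) : (PX k : ℝ) - PY k * Real.sqrt 3 = (lam ^ k)⁻¹ := by
  have h3 : Real.sqrt 3 * Real.sqrt 3 = 3 := Real.mul_self_sqrt (by norm_num)
  apply eq_inv_of_mul_eq_one_left
  rw [← PellSize_pow]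
  have h1 : ((PX k : ℝ)) ^ 2 = 3 * (PY k : ℝ) ^ 2 + 1 := by exact_mod_cast PX_sq k
  linear_combination h1 - (PY k : ℝ) ^ 2 * h3

/-- induction: `PX k + PY k * √3 = lam^k` and `(PX k + PY k √3)(PX k - PY k √3) = 1` by `PX_sq`. -/
theorem two_PX (k : ℕ) : 2 * (PX k : ℝ) = lam ^ k + (lam ^ k)⁻¹ := by
  rw [← PellSize_inv, ← PellSize_pow]
  ring

/-- `2v ≥ 2 PX k = lam^k + (lam^k)⁻¹ > lam^k`. -/
theorem lam_pow_lt {k v : ℕ} (h : PX k ≤ v) : lam ^ k < 2 * (v : ℝ) := by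
  have h1 := two_PX k
  have h0 : 0 < lam := lt_trans one_pos lam_gt_one
  have h2 : 0 < (lam ^ k)⁻¹ := by positivity
  have h3 : (PX k : ℝ) ≤ v := by exact_mod_cast h
  linarith

/-- `v ≤ PX (k+1) - 1` so `2v ≤ lam^(k+1) + (lam^(k+1))⁻¹ - 2 < lam^(k+1)` as
`(lam^(k+1))⁻¹ < 1 < 2`. -/
theorem lt_lam_pow {k v : ℕ} (h : v < PX k) : 2 * (v : ℝ) < lam ^ k := by
  have h1 := two_PX k
  have h2 : (lam ^ k)⁻¹ ≤ 1 := inv_le_one_of_one_le₀ (one_le_pow₀ lam_gt_one.le)
  have h3 : (v : ℝ) + 1 ≤ PX k := by exact_mod_cast h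
  linarith

/-- Consequence for `F = log(2v)/log lam` (take logarithms in the two lemmas above and use
`kap_spec`): `kap v < F < kap v + 1`. -/
theorem kap_lt {v : ℕ} (hv : 1 ≤ v) :
    (kap v : ℝ) < Real.log (2 * v) / Real.log lam ∧
      Real.log (2 * v) / Real.log lam < kap v + 1 := by
  obtain ⟨h1, h2⟩ := kap_spec hv
  have h3 := lam_pow_lt h1
  have h4 := lt_lam_pow h2
  have h0 : 0 < lam := lt_trans one_pos lam_gt_one
  have hl : 0 < Real.log lam := Real.log_pos lam_gt_one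
  have hv' : (0 : ℝ) < 2 * v := by
    have : (1 : ℝ) ≤ v := by exact_mod_cast hv
    linarith
  constructor
  · rw [lt_div_iff₀ hl, ← Real.log_pow]
    exact Real.log_lt_log (by positivity) h3
  · rw [div_lt_iff₀ hl]
    have h5 : ((kap v : ℝ) + 1) * Real.log lam = Real.log (lam ^ (kap v + 1)) := by
      rw [Real.log_pow]
      push_cast
      ring
    rw [h5]
    exact Real.log_lt_log hv' h4

end Crest.Agent.SF
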