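import Crest.Agent.SF.PellSize
import Crest.Agent.SF.PellNum
import Crest.Agent.SF.CurveSeq

/-!
# Chunk R323-PINA: the sizes of `VV n` measured by Pell indices
-/

set_option autoImplicit false

namespace Crest.Agent.SF

/-- Pell index of `VV n` -/
noncomputable def kp (n : ℕ) : ℕ := kap (VV n)

noncomputable def FF (n : ℕ) : ℝ := Real.log (2 * VV n) / Real.log lam

theorem kp_lt (n : ℕ) : (kp n : ℝ) < FF n ∧ FF n < kp n + 1 := kap_lt (VV_pos n)

theorem L_pos : 0 < Real.log lam := num5.1.trans_le num5.2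

theorem FF_eq (n : ℕ) : FF n = (Real.log 2 + Real.log (VV n)) / Real.log lam := by
  have h : (VV n : ℝ) ≠ 0 := by
    have := VV_pos n
    positivity
  rw [FF, Real.log_mul (by norm_num) h]

/-- `VV 0 = 1`, `num5` -/
theorem FF_zero : 0 < FF 0 ∧ FF 0 ≤ 1 := by
  rw [FF_eq, VV_zero]
  simp only [Nat.cast_one, Real.log_one, add_zero]
  exact ⟨div_pos num5.1 L_pos, (div_le_one L_pos).2 num5.2⟩

/-- `FF 1 - FF 0 = (log 82 - log 2)/log lam = log 41/log lam`; `num3`, `num4`. -/
theorem FF_one : (14 : ℝ) / 5 ≤ FF 1 - FF 0 ∧ FF 1 - FF 0 ≤ 71 / 25 := by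
  have hL := L_pos
  have e : FF 1 - FF 0 = Real.log 41 / Real.log lam := by
    rw [FF_eq, FF_eq, VV_zero, VV_one]
    simp only [Nat.cast_one, Real.log_one, add_zero]
    rw [← sub_div]
    norm_num
  rw [e, le_div_iff₀ hL, div_le_iff₀ hL]
  have h3 := num3
  have h4 := num4
  constructor <;> linarith

/-- logarithm of `VV_lower`: `4 log V(n+1) + 4 log 41 ≤ log 2 + 2 log V(n+2) + 2 log V(n)`, `num1` -/
theorem FF_lower (n : ℕ) : (53 : ℝ) / 10 ≤ FF (n + 2) - 2 * FF (n + 1) + FF n := by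
  have hL := L_pos
  have ha : (0 : ℝ) < VV (n + 2) := by exact_mod_cast VV_pos (n + 2)
  have hb : (0 : ℝ) < VV (n + 1) := by exact_mod_cast VV_pos (n + 1)
  have hc : (0 : ℝ) < VV n := by exact_mod_cast VV_pos n
  have h1 : (VV (n + 1) : ℝ) ^ 4 * 41 ^ 4 ≤ 2 * (VV (n + 2) : ℝ) ^ 2 * (VV n : ℝ) ^ 2 := by
    exact_mod_cast VV_lower n
  have h2 := Real.log_le_log (by positivity) h1
  rw [Real.log_mul (by positivity) (by positivity), Real.log_mul (by positivity) (by positivity),
    Real.log_mul (by positivity) (by positivity), Real.log_pow, Real.log_pow, Real.log_pow,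
    Real.log_pow] at h2
  push_cast at h2
  have e : FF (n + 2) - 2 * FF (n + 1) + FF n
      = (Real.log (VV (n + 2)) - 2 * Real.log (VV (n + 1)) + Real.log (VV n)) / Real.log lam := by
    rw [FF_eq, FF_eq, FF_eq]
    field_simp
    ring
  rw [e, le_div_iff₀ hL]
  have h3 := num1
  linarith

/-- logarithm of `VV_upper`: `log V(n+2) + log V(n) ≤ log 2 + 2 log 41 + 2 log V(n+1)`, `num2` -/
theorem FF_upper (n : ℕ) : FF (n + 2) - 2 * FF (n + 1) + FF n ≤ 31 / 5 := by
  have hL := L_pos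
  have ha : (0 : ℝ) < VV (n + 2) := by exact_mod_cast VV_pos (n + 2)
  have hb : (0 : ℝ) < VV (n + 1) := by exact_mod_cast VV_pos (n + 1)
  have hc : (0 : ℝ) < VV n := by exact_mod_cast VV_pos n
  have h1 : (VV (n + 2) : ℝ) * VV n ≤ 2 * 41 ^ 2 * (VV (n + 1) : ℝ) ^ 2 := by
    exact_mod_cast VV_upper n
  have h2 := Real.log_le_log (by positivity) h1
  rw [Real.log_mul (by positivity) (by positivity), Real.log_mul (by positivity) (by positivity),
    Real.log_mul (by positivity) (by positivity), Real.log_pow, Real.log_pow] at h2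
  push_cast at h2
  have e : FF (n + 2) - 2 * FF (n + 1) + FF n
      = (Real.log (VV (n + 2)) - 2 * Real.log (VV (n + 1)) + Real.log (VV n)) / Real.log lam := by
    rw [FF_eq, FF_eq, FF_eq]
    field_simp
    ring
  rw [e, div_le_iff₀ hL]
  have h3 := num2
  linarith

/-- induction -/
theorem FF_diff_lower (n : ℕ) : (14 : ℝ) / 5 + 53 / 10 * n ≤ FF (n + 1) - FF n := by
  induction n with
  | zero => simpa using FF_one.1
  | succ n ih =>
    have h := FF_lower n
    push_cast
    rw [show n + 1 + 1 = n + 2 from rfl]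
    linarith

theorem FF_diff_upper (n : ℕ) : FF (n + 1) - FF n ≤ 71 / 25 + 31 / 5 * n := by
  induction n with
  | zero => simpa using FF_one.2
  | succ n ih =>
    have h := FF_upper n
    push_cast
    rw [show n + 1 + 1 = n + 2 from rfl]
    linarith

/-- induction -/
theorem FF_val_lower (n : ℕ) : (14 : ℝ) / 5 * n + 53 / 20 * (n * (n - 1)) ≤ FF n := by
  induction n with
  | zero => simpa using FF_zero.1.le
  | succ n ih =>
    have h := FF_diff_lower n
    push_cast
    nlinarith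

theorem FF_val_upper (n : ℕ) : FF n ≤ 1 + 71 / 25 * n + 31 / 10 * (n * (n - 1)) := by
  induction n with
  | zero => simpa using FF_zero.2
  | succ n ih =>
    have h := FF_diff_upper n
    push_cast
    nlinarith

/-- `kp(n+2) - 2 kp(n+1) + kp n > (F(n+2) - 1) - 2F(n+1) + (F n - 1) ≥ 5.3 - 2 = 3.3`. -/
theorem kp_convex (n : ℕ) : 2 * kp (n + 1) + 4 ≤ kp (n + 2) + kp n := by
  have h0 := kp_lt n
  have h1 := kp_lt (n + 1)
  have h2 := kp_lt (n + 2)
  have h := FF_lower n
  have h3 : (2 * kp (n + 1) + 3 : ℝ) < kp (n + 2) + kp n := by linarith [h0.1, h0.2, h1.1, h1.2, h2.1, h2.2]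
  have h4 : 2 * kp (n + 1) + 3 < kp (n + 2) + kp n := by exact_mod_cast h3
  omega

end Crest.Agent.SF
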